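import Vale.Agent.P318.H724.Main

/-! From one semimetric to the Goemans-Linial value. -/

open Finset

set_option linter.unusedSectionVars false

namespace Vale.Agent.P318.H724

open Vale.Agent.P318.H867

variable {V : Type*} [Fintype V] [DecidableEq V] [Nontrivial V] {c d : V → V → ℝ}

/-- a feasible solution exists -/
lemma feasible (V : Type*) [Fintype V] [DecidableEq V] [Nontrivial V] :
    ∃ d : V → V → ℝ, IsNegTypeSemimetric d ∧ (∑ i, ∑ j, d i j) / 2 = 1 := by
  have hn : (1 : ℝ) < Fintype.card V := by exact_mod_cast Fintype.one_lt_card (α := V)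
  set N : ℝ := (Fintype.card V : ℝ) with hN
  set t : ℝ := 1 / (N * (N - 1)) with ht
  have htpos : 0 < t := by
    have : 0 < N - 1 := by linarith
    positivity
  refine ⟨fun i j => if i = j then 0 else 2 * t, ⟨⟨fun i => EuclideanSpace.single i (Real.sqrt t),
    ?_⟩, ?_⟩, ?_⟩
  · intro i j
    by_cases h : i = j
    · simp [h]
    · simp only [if_neg h]
      rw [EuclideanSpace.norm_sq_eq]
      have h1 : ∀ k, ‖(EuclideanSpace.single i (Real.sqrt t) -
          EuclideanSpace.single j (Real.sqrt t) : EuclideanSpace ℝ V) k‖ ^ 2 =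
          (if k = i then t else 0) + (if k = j then t else 0) := by
        intro k
        by_cases hi : k = i
        · have hj : k ≠ j := fun h' => h (hi.symm.trans h')
          subst hi
          simp [hj, Real.sq_sqrt htpos.le]
        · by_cases hj : k = j
          · subst hj
            simp [hi, Real.sq_sqrt htpos.le]
          · simp [hi, hj]
      simp_rw [h1, sum_add_distrib]
      simp
      ring
  · intro i j k
    by_cases h1 : i = k
    · subst h1
      simp only [if_true]
      split_ifs <;> linarith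
    · by_cases h2 : i = j
      · subst h2
        simp [h1]
      · simp only [h1, h2, if_false]
        split_ifs <;> linarith
  · have h1 : ∀ i : V, ∑ j, (if i = j then (0:ℝ) else 2 * t) = (N - 1) * (2 * t) := by
      intro i
      have h2 : ∀ j : V, (if i = j then (0:ℝ) else 2 * t) = 2 * t - (if i = j then 2 * t else 0) := by
        intro j; split_ifs <;> simp
      simp_rw [h2, sum_sub_distrib]
      simp [hN]
      ring
    simp_rw [h1]
    rw [sum_const, card_univ, nsmul_eq_mul, ← hN, ht]
    have : N - 1 ≠ 0 := by linarith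
    have : N ≠ 0 := by linarith
    field_simp

theorem phi_le_gl {B : ℝ} (hB : 0 < B)
    (h : ∀ d : V → V → ℝ, (∀ x y, 0 ≤ d x y) → (∀ x y, d x y = d y x) →
      (∀ x y z, d x z ≤ d x y + d y z) →
      phi c * ∑ i, ∑ j, d i j ≤ B * ∑ i, ∑ j, c i j * d i j) :
    phi c ≤ B * glValue c := by
  rw [← div_le_iff₀' hB]
  apply le_csInf
  · obtain ⟨d, hd, h1⟩ := feasible V
    exact ⟨_, d, hd, h1, rfl⟩
  · rintro r ⟨d, ⟨⟨x, hx⟩, ht⟩, h1, rfl⟩
    rw [div_le_iff₀' hB]
    have h2 := h d (fun i j => by rw [hx]; positivity)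
      (fun i j => by rw [hx, hx, norm_sub_rev]) ht
    have h3 : ∑ i, ∑ j, d i j = 2 := by linarith
    rw [h3] at h2
    linarith

theorem phi_le_gl' {B : ℝ} (hB : 0 < B)
    (h : ∀ d : V → V → ℝ, IsNegTypeSemimetric d →
      phi c * ∑ i, ∑ j, d i j ≤ B * ∑ i, ∑ j, c i j * d i j) :
    phi c ≤ B * glValue c := by
  rw [← div_le_iff₀' hB]
  apply le_csInf
  · obtain ⟨d, hd, h1⟩ := feasible V
    exact ⟨_, d, hd, h1, rfl⟩
  · rintro r ⟨d, hd, h1, rfl⟩
    rw [div_le_iff₀' hB]
    have h2 := h d hd
    have h3 : ∑ i, ∑ j, d i j = 2 := by linarith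
    rw [h3] at h2
    linarith

end Vale.Agent.P318.H724
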