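import Vale.Agent.P318.H724.Main

/-! Spread capacities: the metric relaxation, with the threshold three quarters. -/

open Finset

set_option linter.unusedSectionVars false

namespace Vale.Agent.P318.H724

open Vale.Agent.P318.H867

variable {V : Type*} [Fintype V] [DecidableEq V] [Nontrivial V] {c d : V → V → ℝ}

/-- **Main theorem, for one semimetric.** -/
theorem mainB (hc : ∀ i j, 0 ≤ c i j) (hsym : ∀ i j, c i j = c j i) {m : ℕ} (hm : 1 ≤ m)
    (E : Finset V) (hE : 32 * E.card ≤ Fintype.card V)
    (hspread : ∀ i ∉ E, ∀ S : Finset V, 0 < ∑ j, c i j →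
      3 * ∑ j, c i j ≤ 4 * ∑ j ∈ S, c i j → m ≤ S.card)
    (hd : ∀ x y, 0 ≤ d x y) (hs : ∀ x y, d x y = d y x) (ht : ∀ x y z, d x z ≤ d x y + d y z) :
    phi c * ∑ x, ∑ y, d x y ≤
      16384 * ((Nat.log 2 (Fintype.card V / m) : ℝ) + 1) * ∑ x, ∑ y, c x y * d x y := by
  have hphi := phi_nonneg hc
  set Q := ∑ x, ∑ y, c x y * d x y with hQ
  have hQ0 : 0 ≤ Q := sum_nonneg fun x _ => sum_nonneg fun y _ => mul_nonneg (hc x y) (hd x y)
  set n : ℝ := (Fintype.card V : ℝ) with hn
  have hn0 : 0 < n := by
    have : 0 < Fintype.card V := Fintype.card_pos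
    rw [hn]; exact_mod_cast this
  set S := ∑ x, ∑ y, d x y with hSdef
  have hS0 : 0 ≤ S := sum_nonneg fun x _ => sum_nonneg fun y _ => hd x y
  set ℓ : ℝ := (Nat.log 2 (Fintype.card V / m) : ℝ) with hℓ
  have hℓ0 : 0 ≤ ℓ := by positivity
  have hRHS : 0 ≤ 16384 * (ℓ + 1) * Q := by positivity
  have hKQ : ∀ K : ℝ, 0 ≤ K → K ≤ 16384 → K * Q ≤ 16384 * (ℓ + 1) * Q := by
    intro K hK0 hK
    apply mul_le_mul_of_nonneg_right _ hQ0
    nlinarith
  -- trivial case
  rcases hS0.eq_or_lt with hS00 | hSpos
  · rw [← hS00, mul_zero]; exact hRHS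
  set δ : ℝ := S / n ^ 2 with hδ
  have hδ0 : 0 < δ := by positivity
  have hSδ : S = δ * n ^ 2 := by rw [hδ]; field_simp
  -- the least degree outside the exceptional set
  have hEc : (Eᶜ).Nonempty := by
    rw [← card_pos, card_compl]
    have : 1 < Fintype.card V := Fintype.one_lt_card
    omega
  obtain ⟨v, hv, hvmin⟩ := exists_min_image Eᶜ (fun i => ∑ j, c i j) hEc
  set D := ∑ j, c v j with hD
  have hD0 : 0 ≤ D := sum_nonneg fun j _ => hc v j
  have hcut : phi c * n ≤ 2 * D := vertex_cut hc v
  rcases hD0.eq_or_lt with hD00 | hDpos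
  · rw [← hD00, mul_zero] at hcut
    have : phi c ≤ 0 := by
      by_contra hcon
      push Not at hcon
      have := mul_pos hcon hn0
      linarith
    have h0 : phi c = 0 := le_antisymm this hphi
    rw [h0, zero_mul]; exact hRHS
  set r : ℝ := 128 * Q / (n * D) with hr
  have hr0 : 0 ≤ r := by positivity
  have hrD : r * D / 4 = 32 * Q / n := by rw [hr]; field_simp; ring
  rcases lt_or_ge (δ / 64) r with hlarge | hsmall
  · -- the cut of the vertex of least degree is good enough
    have h1 : δ * (n * D) < 8192 * Q := by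
      rw [hr, lt_div_iff₀ (by positivity)] at hlarge
      linarith
    have h2 : phi c * S ≤ 16384 * Q := by
      rw [hSδ]
      have h3 : phi c * n * (δ * n) ≤ 2 * D * (δ * n) :=
        mul_le_mul_of_nonneg_right hcut (by positivity)
      nlinarith
    exact h2.trans (hKQ _ (by norm_num) (by norm_num))
  · -- the good points
    set Gd : Finset V := univ.filter fun x => x ∉ E ∧ ∑ y, c x y * d x y ≤ 32 * Q / n with hGd
    have hG : ∀ x ∈ Gd, m ≤ (ball d x r).card := by
      intro x hx
      rw [hGd, mem_filter] at hx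
      obtain ⟨-, hxE, hxQ⟩ := hx
      have hdx : D ≤ ∑ j, c x j := hvmin x (by rw [mem_compl]; exact hxE)
      apply hspread x hxE _ (by linarith)
      by_contra hcon
      push Not at hcon
      have hsplit : ∑ j ∈ ball d x r, c x j + ∑ j ∈ (ball d x r)ᶜ, c x j = ∑ j, c x j :=
        sum_add_sum_compl _ _
      have hT : D / 4 < ∑ j ∈ (ball d x r)ᶜ, c x j := by linarith
      obtain ⟨y, hy, hcy⟩ : ∃ y ∈ (ball d x r)ᶜ, 0 < c x y := by
        by_contra hno
        push Not at hno
        have := sum_nonpos hno
        linarith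
      have hlt : ∑ j ∈ (ball d x r)ᶜ, c x j * r < ∑ j ∈ (ball d x r)ᶜ, c x j * d x j := by
        apply sum_lt_sum
        · intro j hj
          rw [mem_compl, mem_ball, not_le] at hj
          exact mul_le_mul_of_nonneg_left hj.le (hc x j)
        · rw [mem_compl, mem_ball, not_le] at hy
          refine ⟨y, by rw [mem_compl, mem_ball, not_le]; exact hy, ?_⟩
          exact mul_lt_mul_of_pos_left hy hcy
      rw [← sum_mul] at hlt
      have h2 : ∑ j ∈ (ball d x r)ᶜ, c x j * d x j ≤ ∑ y, c x y * d x y :=
        sum_le_sum_of_subset_of_nonneg (subset_univ _) fun j _ _ => mul_nonneg (hc x j) (hd x j)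
      have h3 : D / 4 * r ≤ (∑ j ∈ (ball d x r)ᶜ, c x j) * r :=
        mul_le_mul_of_nonneg_right hT.le hr0
      have h4 : D / 4 * r = 32 * Q / n := by rw [← hrD]; ring
      linarith
    -- most points are good
    have hGc : 15 * n ≤ 16 * Gd.card := by
      set B : Finset V := univ.filter fun x => 32 * Q / n < ∑ y, c x y * d x y with hB
      have hcov : (univ : Finset V) ⊆ Gd ∪ (E ∪ B) := by
        intro x _
        by_cases h1 : x ∈ E
        · exact mem_union_right _ (mem_union_left _ h1)
        · by_cases h2 : ∑ y, c x y * d x y ≤ 32 * Q / n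
          · apply mem_union_left
            rw [hGd, mem_filter]
            exact ⟨mem_univ _, h1, h2⟩
          · apply mem_union_right
            apply mem_union_right
            rw [hB, mem_filter]
            exact ⟨mem_univ _, not_le.1 h2⟩
      have h1 : n ≤ Gd.card + (E.card + B.card) := by
        have h2 := card_le_card hcov
        rw [card_univ] at h2
        have h3 : Fintype.card V ≤ Gd.card + (E.card + B.card) :=
          h2.trans ((card_union_le _ _).trans (Nat.add_le_add_left (card_union_le _ _) _))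
        rw [hn]; exact_mod_cast h3
      have h2 : 32 * (E.card : ℝ) ≤ n := by rw [hn]; exact_mod_cast hE
      have h3 : 32 * (B.card : ℝ) ≤ n := by
        by_contra hcon
        push Not at hcon
        have hBne : B.Nonempty := by
          rw [← card_pos]
          have : (0 : ℝ) < B.card := by linarith
          exact_mod_cast this
        have h4 : ∑ x ∈ B, 32 * Q / n < ∑ x ∈ B, ∑ y, c x y * d x y := by
          apply sum_lt_sum_of_nonempty hBne
          intro x hx
          rw [hB, mem_filter] at hx
          exact hx.2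
        rw [sum_const, nsmul_eq_mul] at h4
        have h5 : ∑ x ∈ B, ∑ y, c x y * d x y ≤ Q :=
          sum_le_sum_of_subset_of_nonneg (subset_univ _) fun x _ _ =>
            sum_nonneg fun y _ => mul_nonneg (hc x y) (hd x y)
        have h6 : Q ≤ (B.card : ℝ) * (32 * Q / n) := by
          rw [← mul_div_assoc, le_div_iff₀ hn0]
          nlinarith
        linarith
      linarith
    rcases em (∃ a, 3 * (Fintype.card V : ℝ) ≤ 4 * (ball d a (δ / 16)).card) with hA | hA
    · obtain ⟨a, ha⟩ := hA
      have h1 := case_ball hc hsym hd hs ht hδ0 hSδ a ha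
      exact h1.trans (hKQ _ (by norm_num) (by norm_num))
    · push Not at hA
      have hL : Fintype.card V < m * 2 ^ (Nat.log 2 (Fintype.card V / m) + 1) := by
        have h1 := Nat.lt_pow_succ_log_self (b := 2) (by norm_num) (Fintype.card V / m)
        rw [Nat.div_lt_iff_lt_mul (by omega)] at h1
        rw [mul_comm]
        exact h1
      have h1 := case_pairs hc hsym hd hs ht hδ0 hm (L := Nat.log 2 (Fintype.card V / m) + 1)
        (by omega) hL hsmall Gd hG hGc (fun a => (hA a).le)
      rw [hSδ]
      push_cast at h1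
      have h2 : 8739 * (ℓ + 1) * Q ≤ 16384 * (ℓ + 1) * Q :=
        mul_le_mul_of_nonneg_right (by linarith) hQ0
      exact h1.trans h2

end Vale.Agent.P318.H724
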