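import Vale.Agent.P318.H724.Core
import Vale.Agent.P318.H724.Final
import Vale.Agent.P318.H724.MainB

/-! Spread capacities: the Goemans-Linial relaxation loses only the square root of the logarithm
of `n / m`. -/

open Finset

set_option linter.unusedSectionVars false

namespace Vale.Agent.P318.H724

open Vale.Agent.P318.H867

variable {V : Type*} [Fintype V] [DecidableEq V] [Nontrivial V] {c d : V → V → ℝ}

/-- Either the cut of one vertex is good enough, or most balls of radius `τ` are large. -/
theorem good_set (hc : ∀ i j, 0 ≤ c i j) {m : ℕ}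
    (E : Finset V) (hE : 32 * E.card ≤ Fintype.card V)
    (hspread : ∀ i ∉ E, ∀ S : Finset V, 0 < ∑ j, c i j →
      3 * ∑ j, c i j ≤ 4 * ∑ j ∈ S, c i j → m ≤ S.card)
    (hd : ∀ x y, 0 ≤ d x y) {δ τ : ℝ} (hδ0 : 0 < δ) (hτ : 0 < τ) :
    phi c * (δ * (Fintype.card V : ℝ) ^ 2) ≤ 256 * (δ / τ) * ∑ x, ∑ y, c x y * d x y ∨
    ∃ Gd : Finset V, 15 * (Fintype.card V : ℝ) ≤ 16 * Gd.card ∧
      ∀ x ∈ Gd, m ≤ (ball d x τ).card := by
  have hphi := phi_nonneg hc
  set Q := ∑ x, ∑ y, c x y * d x y with hQ
  have hQ0 : 0 ≤ Q := sum_nonneg fun x _ => sum_nonneg fun y _ => mul_nonneg (hc x y) (hd x y)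
  set n : ℝ := (Fintype.card V : ℝ) with hn
  have hn0 : 0 < n := by
    have : 0 < Fintype.card V := Fintype.card_pos
    rw [hn]; exact_mod_cast this
  have hRHS : 0 ≤ 256 * (δ / τ) * Q := by positivity
  have hEc : (Eᶜ).Nonempty := by
    rw [← card_pos, card_compl]
    have : 1 < Fintype.card V := Fintype.one_lt_card
    omega
  obtain ⟨v, hv, hvmin⟩ := exists_min_image Eᶜ (fun i => ∑ j, c i j) hEc
  set D := ∑ j, c v j with hD
  have hD0 : 0 ≤ D := sum_nonneg fun j _ => hc v j
  have hcut : phi c * n ≤ 2 * D := vertex_cut hc v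
  rcases hD0.eq_or_lt with hD00 | hDpos
  · left
    rw [← hD00, mul_zero] at hcut
    have : phi c ≤ 0 := by
      by_contra hcon
      push Not at hcon
      have := mul_pos hcon hn0
      linarith
    have h0 : phi c = 0 := le_antisymm this hphi
    rw [h0, zero_mul]; exact hRHS
  set r : ℝ := 128 * Q / (n * D) with hr
  have hr0 : 0 ≤ r := by positivity
  have hrD : r * D / 4 = 32 * Q / n := by rw [hr]; field_simp; ring
  rcases lt_or_ge τ r with hlarge | hsmall
  · left
    have h1 : τ * (n * D) < 128 * Q := by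
      rw [hr, lt_div_iff₀ (by positivity)] at hlarge
      exact hlarge
    have h3 : phi c * n * (δ * n) ≤ 2 * D * (δ * n) :=
      mul_le_mul_of_nonneg_right hcut (by positivity)
    have h4 : 2 * D * (δ * n) = 2 * (δ / τ) * (τ * (n * D)) := by field_simp
    have h5 : 2 * (δ / τ) * (τ * (n * D)) ≤ 2 * (δ / τ) * (128 * Q) :=
      mul_le_mul_of_nonneg_left h1.le (by positivity)
    have h6 : phi c * (δ * n ^ 2) = phi c * n * (δ * n) := by ring
    rw [h6]
    linarith
  · right
    set Gd : Finset V := univ.filter fun x => x ∉ E ∧ ∑ y, c x y * d x y ≤ 32 * Q / n with hGd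
    refine ⟨Gd, ?_, ?_⟩
    · set B : Finset V := univ.filter fun x => 32 * Q / n < ∑ y, c x y * d x y with hB
      have hcov : (univ : Finset V) ⊆ Gd ∪ (E ∪ B) := by
        intro x _
        by_cases h1 : x ∈ E
        · exact mem_union_right _ (mem_union_left _ h1)
        · by_cases h2 : ∑ y, c x y * d x y ≤ 32 * Q / n
          · apply mem_union_left
            rw [hGd, mem_filter]
            exact ⟨mem_univ _, h1, h2⟩
          · apply mem_union_right
            apply mem_union_right
            rw [hB, mem_filter]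
            exact ⟨mem_univ _, not_le.1 h2⟩
      have h1 : n ≤ Gd.card + (E.card + B.card) := by
        have h2 := card_le_card hcov
        rw [card_univ] at h2
        have h3 : Fintype.card V ≤ Gd.card + (E.card + B.card) :=
          h2.trans ((card_union_le _ _).trans (Nat.add_le_add_left (card_union_le _ _) _))
        rw [hn]; exact_mod_cast h3
      have h2 : 32 * (E.card : ℝ) ≤ n := by rw [hn]; exact_mod_cast hE
      have h3 : 32 * (B.card : ℝ) ≤ n := by
        by_contra hcon
        push Not at hcon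
        have hBne : B.Nonempty := by
          rw [← card_pos]
          have : (0 : ℝ) < B.card := by linarith
          exact_mod_cast this
        have h4 : ∑ x ∈ B, 32 * Q / n < ∑ x ∈ B, ∑ y, c x y * d x y := by
          apply sum_lt_sum_of_nonempty hBne
          intro x hx
          rw [hB, mem_filter] at hx
          exact hx.2
        rw [sum_const, nsmul_eq_mul] at h4
        have h5 : ∑ x ∈ B, ∑ y, c x y * d x y ≤ Q :=
          sum_le_sum_of_subset_of_nonneg (subset_univ _) fun x _ _ =>
            sum_nonneg fun y _ => mul_nonneg (hc x y) (hd x y)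
        have h6 : Q ≤ (B.card : ℝ) * (32 * Q / n) := by
          rw [← mul_div_assoc, le_div_iff₀ hn0]
          nlinarith
        linarith
      linarith
    · intro x hx
      rw [hGd, mem_filter] at hx
      obtain ⟨-, hxE, hxQ⟩ := hx
      have hdx : D ≤ ∑ j, c x j := hvmin x (by rw [mem_compl]; exact hxE)
      have hsub : ball d x r ⊆ ball d x τ := by
        intro z hz
        rw [mem_ball] at hz ⊢
        exact hz.trans hsmall
      refine le_trans ?_ (card_le_card hsub)
      apply hspread x hxE _ (by linarith)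
      by_contra hcon
      push Not at hcon
      have hsplit : ∑ j ∈ ball d x r, c x j + ∑ j ∈ (ball d x r)ᶜ, c x j = ∑ j, c x j :=
        sum_add_sum_compl _ _
      have hT : D / 4 < ∑ j ∈ (ball d x r)ᶜ, c x j := by linarith
      obtain ⟨y, hy, hcy⟩ : ∃ y ∈ (ball d x r)ᶜ, 0 < c x y := by
        by_contra hno
        push Not at hno
        have := sum_nonpos hno
        linarith
      have hlt : ∑ j ∈ (ball d x r)ᶜ, c x j * r < ∑ j ∈ (ball d x r)ᶜ, c x j * d x j := by
        apply sum_lt_sum
        · intro j hj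
          rw [mem_compl, mem_ball, not_le] at hj
          exact mul_le_mul_of_nonneg_left hj.le (hc x j)
        · rw [mem_compl, mem_ball, not_le] at hy
          refine ⟨y, by rw [mem_compl, mem_ball, not_le]; exact hy, ?_⟩
          exact mul_lt_mul_of_pos_left hy hcy
      rw [← sum_mul] at hlt
      have h2 : ∑ j ∈ (ball d x r)ᶜ, c x j * d x j ≤ ∑ y, c x y * d x y :=
        sum_le_sum_of_subset_of_nonneg (subset_univ _) fun j _ _ => mul_nonneg (hc x j) (hd x j)
      have h3 : D / 4 * r ≤ (∑ j ∈ (ball d x r)ᶜ, c x j) * r :=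
        mul_le_mul_of_nonneg_right hT.le hr0
      have h4 : D / 4 * r = 32 * Q / n := by rw [← hrD]; ring
      linarith

/-- Two separated sets give a cut. -/
lemma sep_bound (hc : ∀ i j, 0 ≤ c i j) (hsym : ∀ i j, c i j = c j i)
    (hd0 : ∀ x, d x x = 0) (hs : ∀ x y, d x y = d y x)
    (ht : ∀ x y z, d x z ≤ d x y + d y z) {A B : Finset V} (hA : A.Nonempty) {η : ℝ}
    (hAB : ∀ a ∈ A, ∀ b ∈ B, η ≤ d a b) :
    phi c * (A.card * (B.card * η)) ≤ ∑ x, ∑ y, c x y * d x y := by
  set f : V → ℝ := fun x => A.inf' hA (fun a => d x a) with hf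
  have hsub : ∀ x y, f x - f y ≤ d x y := by
    intro x y
    obtain ⟨a, ha, hay⟩ := exists_mem_eq_inf' hA (fun a => d y a)
    have h1 : f x ≤ d x a := inf'_le _ ha
    have h2 : f y = d y a := hay
    have := ht x y a
    linarith
  have hl := lip_bound (c := c) (d := d) hc hsym (f := f) (by
    intro x y
    rw [abs_le]
    have h3 := hsub x y
    have h4 := hsub y x
    rw [hs y x] at h4
    constructor <;> linarith)
  refine le_trans ?_ hl
  apply mul_le_mul_of_nonneg_left _ (phi_nonneg hc)
  calc (A.card : ℝ) * (B.card * η) = ∑ a ∈ A, ∑ b ∈ B, η := by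
        rw [sum_const, sum_const, nsmul_eq_mul, nsmul_eq_mul]
    _ ≤ ∑ a ∈ A, ∑ b ∈ B, |f a - f b| := by
        apply sum_le_sum; intro a ha; apply sum_le_sum; intro b hb
        have h1 : f a ≤ 0 := by
          have : f a ≤ d a a := inf'_le _ ha
          rw [hd0] at this
          exact this
        have h2 : η ≤ f b := by
          apply le_inf'
          intro a' ha'
          rw [hs]
          exact hAB a' ha' b hb
        rw [abs_sub_comm]
        exact le_trans (by linarith) (le_abs_self _)
    _ ≤ ∑ a ∈ A, ∑ b, |f a - f b| := sum_le_sum fun a _ =>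
        sum_le_sum_of_subset_of_nonneg (subset_univ _) fun b _ _ => abs_nonneg _
    _ ≤ _ := sum_le_sum_of_subset_of_nonneg (subset_univ _) fun a _ _ =>
        sum_nonneg fun b _ => abs_nonneg _

/-- a maximal separated subset -/
lemma exists_net (hs : ∀ x y, d x y = d y x) (hd0 : ∀ x, d x x = 0)
    (ht : ∀ x y z, d x z ≤ d x y + d y z) (Gd : Finset V)
    {τ : ℝ} (hτ : 0 < τ) {m : ℕ} (hG : ∀ x ∈ Gd, m ≤ (ball d x τ).card) :
    ∃ R : Finset V, R ⊆ Gd ∧ R.card * m ≤ Fintype.card V ∧
      ∃ p : V → V, (∀ x ∈ Gd, p x ∈ R ∧ d x (p x) ≤ 2 * τ) ∧ ∀ x ∈ R, p x = x := by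
  classical
  obtain ⟨R, hR, hmax⟩ := exists_max_image
    (Gd.powerset.filter fun R => ∀ x ∈ R, ∀ y ∈ R, x ≠ y → 2 * τ < d x y) card
    ⟨∅, by simp⟩
  rw [mem_filter, mem_powerset] at hR
  have hcov : ∀ x ∈ Gd, ∃ y ∈ R, d x y ≤ 2 * τ := by
    intro x hx
    by_contra hcon
    push Not at hcon
    have hxR : x ∉ R := fun h => by
      have := hcon x h
      rw [hd0] at this
      linarith
    have h1 := hmax (insert x R) (by
      rw [mem_filter, mem_powerset]
      refine ⟨insert_subset hx hR.1, ?_⟩
      intro a ha b hb hab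
      rw [mem_insert] at ha hb
      rcases ha with rfl | ha <;> rcases hb with rfl | hb
      · exact absurd rfl hab
      · exact hcon b hb
      · rw [hs]; exact hcon a ha
      · exact hR.2 a ha b hb hab)
    rw [card_insert_of_notMem hxR] at h1
    omega
  have hcard : R.card * m ≤ Fintype.card V := by
    have hdis : ∀ x ∈ R, ∀ y ∈ R, x ≠ y → Disjoint (ball d x τ) (ball d y τ) := by
      intro x hx y hy hxy
      rw [disjoint_left]
      intro z hz hz'
      rw [mem_ball] at hz hz'
      have h1 := hR.2 x hx y hy hxy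
      have h2 := ht x z y
      rw [hs z y] at h2
      linarith
    have h1 : (R.biUnion fun x => ball d x τ).card = ∑ x ∈ R, (ball d x τ).card :=
      card_biUnion hdis
    calc R.card * m = ∑ x ∈ R, m := by rw [sum_const, smul_eq_mul]
      _ ≤ ∑ x ∈ R, (ball d x τ).card := sum_le_sum fun x hx => hG x (hR.1 hx)
      _ = _ := h1.symm
      _ ≤ _ := card_le_univ _
  choose! q hq using hcov
  refine ⟨R, hR.1, hcard, fun x => if x ∈ R then x else q x, ?_, ?_⟩
  · intro x hx
    by_cases h : x ∈ R
    · simp only [if_pos h]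
      exact ⟨h, by rw [hd0]; linarith⟩
    · simp only [if_neg h]
      exact hq x hx
  · intro x hx
    simp only [if_pos hx]

end Vale.Agent.P318.H724
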