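import Vale.Agent.P318.H724.Match

/-! Separated sets of positive density in a squared Euclidean semimetric. -/

open Finset

set_option linter.unusedSectionVars false

namespace Vale.Agent.P318.H724

variable {I : Type*} [Fintype I] [DecidableEq I] {N : ℕ}

/-- **Core theorem.** -/
theorem core {x : I → Fin N → ℝ} (ht : ∀ i j k, sqd x i k ≤ sqd x i j + sqd x j k) [Nonempty I]
    (R : Finset I) (hR : ∀ i, ∃ j ∈ R, x j = x i) {l σ : ℝ} (hl : 1 ≤ l)
    (hlR : Real.log R.card ≤ l ^ 2) (hσ : 0 < σ)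
    (hP : (Fintype.card I : ℝ) ^ 2 ≤ 6 * ((univ.filter fun p : I × I =>
      4 * σ ^ 2 ≤ sqd x p.1 p.2).card : ℝ)) :
    ∃ A B : Finset I, (1 / 240 : ℝ) * Fintype.card I ≤ A.card ∧
      (1 / 240 : ℝ) * Fintype.card I ≤ B.card ∧
      ∀ a ∈ A, ∀ b ∈ B, σ ^ 2 / (2000000 * l) < sqd x a b := by
  by_contra hcon
  push Not at hcon
  set Δ : ℝ := σ ^ 2 / (2000000 * l) with hΔ
  have hΔ0 : 0 < Δ := by positivity
  set s0 : ℝ := (σ / 1360) ^ 2 with hs0
  have hs00 : 0 < s0 := by positivity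
  have hn0 : (0 : ℝ) < Fintype.card I := by
    have : 0 < Fintype.card I := Fintype.card_pos
    exact_mod_cast this
  have hstep : ∀ s, 0 ≤ s → s ≤ s0 →
      ∑ e, ∑ i, Y x s e i + 2 ^ N * (Fintype.card I * (σ / 480)) ≤
        ∑ e, ∑ i, Y x (s + Δ) e i := by
    intro s hs hs1
    apply step ht hs _ hΔ0.le hσ hP hcon
    calc 2 * s ≤ 2 * s0 := by linarith
      _ = 2 / 1849600 * σ ^ 2 := by rw [hs0]; ring
      _ ≤ 1 / 921600 * σ ^ 2 := by nlinarith [sq_nonneg σ]
      _ = (σ / 960) ^ 2 := by ring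
  have hit : ∀ k : ℕ, ((k : ℝ) - 1) * Δ ≤ s0 →
      2 ^ N * (Fintype.card I * (k * (σ / 480))) ≤ ∑ e, ∑ i, Y x (k * Δ) e i := by
    intro k
    induction k with
    | zero =>
      intro _
      have : 0 ≤ ∑ e, ∑ i, Y x (((0 : ℕ) : ℝ) * Δ) e i :=
        sum_nonneg fun e _ => sum_nonneg fun i _ => Y_nonneg _ _ _ _
      simpa using this
    | succ k ih =>
      intro hk
      push_cast at hk ⊢
      have h1 : (k : ℝ) * Δ ≤ s0 := by linarith
      have h2 := ih (by nlinarith)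
      have h3 := hstep (k * Δ) (by positivity) h1
      have h4 : ((k : ℝ) + 1) * Δ = k * Δ + Δ := by ring
      rw [h4]
      have h5 : (2 : ℝ) ^ N * (Fintype.card I * (((k : ℝ) + 1) * (σ / 480))) =
          2 ^ N * (Fintype.card I * (k * (σ / 480))) + 2 ^ N * (Fintype.card I * (σ / 480)) := by
        ring
      rw [h5]
      linarith
  -- the number of steps
  set k : ℕ := ⌊s0 / Δ⌋₊ + 1 with hk
  have hk1 : ((k : ℝ) - 1) * Δ ≤ s0 := by
    have h1 : ((⌊s0 / Δ⌋₊ : ℕ) : ℝ) ≤ s0 / Δ := Nat.floor_le (by positivity)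
    have h2 : (k : ℝ) - 1 = (⌊s0 / Δ⌋₊ : ℕ) := by rw [hk]; push_cast; ring
    rw [h2]
    rwa [le_div_iff₀ hΔ0] at h1
  have hk2 : s0 ≤ k * Δ := by
    have h1 : s0 / Δ < (⌊s0 / Δ⌋₊ : ℝ) + 1 := Nat.lt_floor_add_one _
    have h2 : (k : ℝ) = (⌊s0 / Δ⌋₊ : ℝ) + 1 := by rw [hk]; push_cast; ring
    rw [h2]
    rw [div_lt_iff₀ hΔ0] at h1
    exact h1.le
  have hΔs : Δ ≤ s0 := by
    rw [hΔ, hs0, div_le_iff₀ (by positivity)]
    have h1 : σ ^ 2 ≤ σ ^ 2 * l := by nlinarith [sq_nonneg σ]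
    have h2 : (σ / 1360) ^ 2 * (2000000 * l) = (2000000 / 1849600) * (σ ^ 2 * l) := by ring
    rw [h2]
    nlinarith [sq_nonneg σ]
  have hk3 : k * Δ ≤ 2 * s0 := by linarith
  have hlow := hit k hk1
  have hl0 : 0 < l := by linarith
  have hup : ∑ e, ∑ i, Y x (k * Δ) e i ≤ 2 ^ N * (Fintype.card I * (2 * l * (σ / 1360))) := by
    rw [sum_comm]
    have hlam : 0 < l / (σ / 1360) := by positivity
    calc ∑ i, ∑ e, Y x (k * Δ) e i ≤ ∑ _i : I, 2 ^ N * (2 * l * (σ / 1360)) := by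
          apply sum_le_sum
          intro i _
          refine (mean_le (by positivity) hlam R hR i).trans ?_
          apply mul_le_mul_of_nonneg_left _ (by positivity)
          have h1 : Real.log R.card / (l / (σ / 1360)) ≤ l * (σ / 1360) := by
            rw [div_le_iff₀ hlam]
            have : l * (σ / 1360) * (l / (σ / 1360)) = l ^ 2 := by field_simp
            rw [this]; exact hlR
          have h2 : l / (σ / 1360) * (k * Δ) / 2 ≤ l * (σ / 1360) := by
            have h3 : l / (σ / 1360) * (k * Δ) ≤ l / (σ / 1360) * (2 * s0) :=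
              mul_le_mul_of_nonneg_left hk3 hlam.le
            have h4 : l / (σ / 1360) * (2 * s0) = 2 * (l * (σ / 1360)) := by
              rw [hs0]; field_simp
            linarith
          linarith
      _ = _ := by rw [sum_const, card_univ, nsmul_eq_mul]; ring
  have h1 := hlow.trans hup
  have h2 := le_of_mul_le_mul_left h1 (by positivity)
  have h3 := le_of_mul_le_mul_left h2 hn0
  -- contradiction
  have h4 : (k : ℝ) ≤ 2 * l * 480 / 1360 := by
    have h5 : (k : ℝ) * (σ / 480) * 480 ≤ 2 * l * (σ / 1360) * 480 :=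
      mul_le_mul_of_nonneg_right h3 (by norm_num)
    have h6 : σ * k ≤ σ * (2 * l * 480 / 1360) := by
      calc σ * k = (k : ℝ) * (σ / 480) * 480 := by ring
        _ ≤ _ := h5
        _ = _ := by ring
    exact le_of_mul_le_mul_left h6 hσ
  have h7 : s0 ≤ 2 * l * 480 / 1360 * Δ := hk2.trans (mul_le_mul_of_nonneg_right h4 hΔ0.le)
  have h8 : 2 * l * 480 / 1360 * Δ = (960 / (1360 * 2000000)) * σ ^ 2 := by
    rw [hΔ]; field_simp; norm_num
  have h9 : s0 = (1 / 1849600) * σ ^ 2 := by rw [hs0]; ring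
  rw [h8, h9] at h7
  have h10 : 0 < σ ^ 2 := by positivity
  nlinarith

end Vale.Agent.P318.H724
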