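import Mathlib

/-! Counting tuples which avoid one set and meet another one. -/

open Finset

namespace Vale.Agent.P318.H724

variable {V : Type*} [Fintype V] [DecidableEq V]

lemma card_avoid (k : ℕ) (X : Finset V) :
    (univ.filter (fun a : Fin k → V => ∀ i, a i ∉ X)).card = (Fintype.card V - X.card) ^ k := by
  have h : (univ.filter (fun a : Fin k → V => ∀ i, a i ∉ X)) =
      Fintype.piFinset (fun _ => Xᶜ) := by
    ext a; simp
  rw [h, Fintype.card_piFinset]
  simp [card_compl]

lemma pow_ineq {b M : ℝ} (hb : 0 ≤ b) (hM : 0 ≤ M) (q : ℕ) :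
    b ^ (q + 1) + (q + 1) * M * b ^ q ≤ (b + M) ^ (q + 1) := by
  induction q with
  | zero => simp
  | succ q ih =>
    have h1 : (b + M) * (b ^ (q + 1) + (q + 1) * M * b ^ q) ≤ (b + M) * (b + M) ^ (q + 1) :=
      mul_le_mul_of_nonneg_left ih (by positivity)
    have h2 : 0 ≤ ((q : ℝ) + 1) * M * M * b ^ q := by positivity
    have h3 : (b + M) * (b ^ (q + 1) + (q + 1) * M * b ^ q) =
        b ^ (q + 1 + 1) + ((q : ℝ) + 1 + 1) * M * b ^ (q + 1) + (q + 1) * M * M * b ^ q := by ring
    have h4 : (b + M) ^ (q + 1 + 1) = (b + M) * (b + M) ^ (q + 1) := by ring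
    rw [h4]
    push_cast
    linarith

/-- A random tuple of about `n / (6 M)` points avoids `X` and meets `Y` with probability at
least `1 / 12`. -/
theorem count {X Y : Finset V} (hXY : Disjoint X Y) {M : ℕ} (hM : 1 ≤ M) (hX : X.card ≤ 2 * M)
    (hY : M ≤ Y.card) :
    (Fintype.card V : ℝ) ^ (Fintype.card V / (6 * M) + 1) ≤
      12 * ((univ.filter (fun a : Fin (Fintype.card V / (6 * M) + 1) → V =>
        (∀ i, a i ∉ X) ∧ ∃ i, a i ∈ Y)).card : ℝ) := by
  set n := Fintype.card V with hn
  set q := n / (6 * M) with hq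
  obtain ⟨Z, hZY, hZ⟩ := exists_subset_card_eq hY
  have hdis : Disjoint X Z := disjoint_of_subset_right hZY hXY
  have hcard : (X ∪ Z).card = X.card + M := by rw [card_union_of_disjoint hdis, hZ]
  have hle : X.card + M ≤ n := by rw [← hcard]; exact card_le_univ _
  set G := (univ.filter (fun a : Fin (q + 1) → V => (∀ i, a i ∉ X) ∧ ∃ i, a i ∈ Y)) with hG
  have h1 : (n - X.card) ^ (q + 1) ≤ G.card + (n - (X.card + M)) ^ (q + 1) := by
    rw [← card_avoid, ← hcard, ← card_avoid]
    refine (card_le_card ?_).trans (card_union_le _ _)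
    intro a ha
    simp only [mem_filter, mem_univ, true_and] at ha
    simp only [hG, mem_union, mem_filter, mem_univ, true_and]
    by_cases h : ∃ i, a i ∈ Z
    · left
      obtain ⟨i, hi⟩ := h
      exact ⟨ha, i, hZY hi⟩
    · right
      push Not at h
      intro i hi
      rcases hi with hi | hi
      · exact ha i hi
      · exact h i hi
  have h2 : ((n : ℝ) - X.card) ^ (q + 1) ≤ G.card + ((n : ℝ) - X.card - M) ^ (q + 1) := by
    have h3 : (((n - X.card : ℕ) : ℝ)) ^ (q + 1) ≤
        G.card + (((n - (X.card + M) : ℕ) : ℝ)) ^ (q + 1) := by exact_mod_cast h1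
    rw [Nat.cast_sub (by omega), Nat.cast_sub hle] at h3
    push_cast at h3
    rw [← sub_sub] at h3
    exact h3
  set b : ℝ := (n : ℝ) - X.card - M with hb
  have hb0 : 0 ≤ b := by
    have : ((X.card + M : ℕ) : ℝ) ≤ n := by exact_mod_cast hle
    push_cast at this
    rw [hb]; linarith
  have hM1 : (1 : ℝ) ≤ M := by exact_mod_cast hM
  have hn1 : (1 : ℝ) ≤ n := by
    have : 1 ≤ n := by omega
    exact_mod_cast this
  have hn0 : (0 : ℝ) < n := by linarith
  have h3 := pow_ineq hb0 (by linarith : (0 : ℝ) ≤ M) q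
  have h4 : b + M = (n : ℝ) - X.card := by rw [hb]; ring
  rw [h4] at h3
  have h5 : ((q : ℝ) + 1) * M * b ^ q ≤ G.card := by linarith
  -- Bernoulli
  have hqn : (q : ℝ) * (6 * M) ≤ n := by
    have : q * (6 * M) ≤ n := Nat.div_mul_le_self _ _
    exact_mod_cast this
  have hqn2 : (n : ℝ) ≤ (q + 1) * (6 * M) := by
    have : n < (q + 1) * (6 * M) := by
      have := Nat.lt_div_mul_add (a := n) (b := 6 * M) (by omega)
      rw [← hq] at this
      nlinarith
    exact_mod_cast this.le
  have hX' : (X.card : ℝ) ≤ 2 * M := by exact_mod_cast hX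
  have hX0 : (0 : ℝ) ≤ X.card := by positivity
  have h6 : (1 / 2 : ℝ) * n ^ q ≤ b ^ q := by
    have hbn : b / n = 1 + (-((X.card + M) / n)) := by rw [hb]; field_simp; ring
    have h7 : 1 + (q : ℝ) * (-((X.card + M) / n)) ≤ (b / n) ^ q := by
      rw [hbn]
      apply one_add_mul_le_pow
      have : ((X.card : ℝ) + M) / n ≤ 1 := by
        rw [div_le_one hn0]
        have : ((X.card + M : ℕ) : ℝ) ≤ n := by exact_mod_cast hle
        push_cast at this
        exact this
      linarith
    have h8 : (q : ℝ) * ((X.card + M) / n) ≤ 1 / 2 := by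
      rw [← mul_div_assoc, div_le_iff₀ hn0]
      have : (q : ℝ) * (X.card + M) ≤ q * (3 * M) :=
        mul_le_mul_of_nonneg_left (by linarith) (by positivity)
      linarith
    have h9 : (1 / 2 : ℝ) ≤ (b / n) ^ q := by linarith
    rw [div_pow, le_div_iff₀ (by positivity)] at h9
    exact h9
  have h10 : (n : ℝ) ^ (q + 1) = n * n ^ q := by ring
  rw [h10]
  have h11 : (0 : ℝ) ≤ n ^ q := by positivity
  have h12 : ((q : ℝ) + 1) * M * ((1 / 2 : ℝ) * n ^ q) ≤ ((q : ℝ) + 1) * M * b ^ q :=
    mul_le_mul_of_nonneg_left h6 (by positivity)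
  have h13 : (n : ℝ) * n ^ q ≤ (q + 1) * (6 * M) * n ^ q :=
    mul_le_mul_of_nonneg_right hqn2 h11
  linarith

end Vale.Agent.P318.H724
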