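import Mathlib

/-! Rademacher sums on the cube `Fin N → Bool`. -/

open Finset

namespace Vale.Agent.P318.H724

/-- the sign of a Boolean -/
def sg (b : Bool) : ℝ := if b then 1 else -1

/-- the Rademacher sum -/
noncomputable def lin {N : ℕ} (e : Fin N → Bool) (y : Fin N → ℝ) : ℝ := ∑ l, sg (e l) * y l

/-- change one sign -/
def flip {N : ℕ} (l : Fin N) (e : Fin N → Bool) : Fin N → Bool := Function.update e l (!e l)

/-- change all signs -/
def neg {N : ℕ} (e : Fin N → Bool) : Fin N → Bool := fun l => !e l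

lemma sg_not (b : Bool) : sg (!b) = -sg b := by cases b <;> simp [sg]

lemma sum_cons {N : ℕ} (F : (Fin (N + 1) → Bool) → ℝ) :
    ∑ e, F e = ∑ w : Fin N → Bool, (F (Fin.cons true w) + F (Fin.cons false w)) := by
  rw [← (Fin.consEquiv (fun _ : Fin (N + 1) => Bool)).sum_comp, Fintype.sum_prod_type_right]
  apply sum_congr rfl
  intro w _
  rw [Fintype.sum_bool]
  rfl

lemma lin_cons {N : ℕ} (b : Bool) (w : Fin N → Bool) (y : Fin (N + 1) → ℝ) :
    lin (Fin.cons b w : Fin (N + 1) → Bool) y = sg b * y 0 + lin w (fun l => y l.succ) := by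
  unfold lin
  rw [Fin.sum_univ_succ]
  simp

lemma lin_neg {N : ℕ} (e : Fin N → Bool) (y : Fin N → ℝ) : lin (neg e) y = -lin e y := by
  unfold lin neg
  rw [← sum_neg_distrib]
  apply sum_congr rfl
  intro l _
  rw [sg_not]; ring

lemma lin_sub {N : ℕ} (e : Fin N → Bool) (y z : Fin N → ℝ) :
    lin e (fun l => y l - z l) = lin e y - lin e z := by
  unfold lin
  rw [← sum_sub_distrib]
  apply sum_congr rfl
  intro l _
  ring

lemma neg_neg' {N : ℕ} (e : Fin N → Bool) : neg (neg e) = e := by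
  funext l; simp [neg]

lemma sum_neg_comp {N : ℕ} {β : Type*} [AddCommMonoid β] (F : (Fin N → Bool) → β) :
    ∑ e, F (neg e) = ∑ e, F e :=
  Equiv.sum_comp (Function.Involutive.toPerm neg neg_neg') F

lemma flip_flip {N : ℕ} (l : Fin N) (e : Fin N → Bool) : flip l (flip l e) = e := by
  simp [flip]

lemma sum_flip_comp {N : ℕ} (l : Fin N) (F : (Fin N → Bool) → ℝ) :
    ∑ e, F (flip l e) = ∑ e, F e :=
  Equiv.sum_comp (Function.Involutive.toPerm (flip l) (flip_flip l)) F

lemma sum_const_cube {N : ℕ} (a : ℝ) : ∑ _e : Fin N → Bool, a = 2 ^ N * a := by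
  rw [sum_const, card_univ, nsmul_eq_mul]
  simp

lemma exp_moment : ∀ {N : ℕ} (y : Fin N → ℝ),
    ∑ e, Real.exp (lin e y) ≤ 2 ^ N * Real.exp ((∑ l, y l ^ 2) / 2) := by
  intro N
  induction N with
  | zero => intro y; simp [lin]
  | succ N ih =>
    intro y
    rw [sum_cons]
    have h1 : ∀ w : Fin N → Bool, Real.exp (lin (Fin.cons true w : Fin (N + 1) → Bool) y) +
        Real.exp (lin (Fin.cons false w : Fin (N + 1) → Bool) y) =
        2 * Real.cosh (y 0) * Real.exp (lin w (fun l => y l.succ)) := by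
      intro w
      rw [lin_cons, lin_cons, Real.exp_add, Real.exp_add, Real.cosh_eq]
      simp [sg]
      ring
    simp_rw [h1]
    rw [← mul_sum, Fin.sum_univ_succ]
    have h2 := Real.cosh_le_exp_half_sq (y 0)
    have h3 := ih (fun l => y l.succ)
    have h4 : 0 < Real.cosh (y 0) := Real.cosh_pos _
    calc 2 * Real.cosh (y 0) * ∑ w : Fin N → Bool, Real.exp (lin w fun l => y l.succ)
        ≤ 2 * Real.exp (y 0 ^ 2 / 2) * (2 ^ N * Real.exp ((∑ l : Fin N, y l.succ ^ 2) / 2)) := by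
          apply mul_le_mul (by linarith) h3
          · exact sum_nonneg fun _ _ => (Real.exp_pos _).le
          · positivity
      _ = _ := by
          rw [add_div, Real.exp_add]; ring

lemma moment2 : ∀ {N : ℕ} (y : Fin N → ℝ), ∑ e, lin e y ^ 2 = 2 ^ N * ∑ l, y l ^ 2 := by
  intro N
  induction N with
  | zero => intro y; simp [lin]
  | succ N ih =>
    intro y
    rw [sum_cons]
    have h1 : ∀ w : Fin N → Bool, lin (Fin.cons true w : Fin (N + 1) → Bool) y ^ 2 +
        lin (Fin.cons false w : Fin (N + 1) → Bool) y ^ 2 =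
        2 * y 0 ^ 2 + 2 * lin w (fun l => y l.succ) ^ 2 := by
      intro w
      rw [lin_cons, lin_cons]
      simp [sg]
      ring
    simp_rw [h1]
    rw [sum_add_distrib, sum_const_cube, ← mul_sum, ih, Fin.sum_univ_succ]
    ring

lemma moment4 : ∀ {N : ℕ} (y : Fin N → ℝ),
    ∑ e, lin e y ^ 4 ≤ 3 * 2 ^ N * (∑ l, y l ^ 2) ^ 2 := by
  intro N
  induction N with
  | zero => intro y; simp [lin]
  | succ N ih =>
    intro y
    rw [sum_cons]
    have h1 : ∀ w : Fin N → Bool, lin (Fin.cons true w : Fin (N + 1) → Bool) y ^ 4 +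
        lin (Fin.cons false w : Fin (N + 1) → Bool) y ^ 4 =
        2 * y 0 ^ 4 + 12 * y 0 ^ 2 * lin w (fun l => y l.succ) ^ 2 +
          2 * lin w (fun l => y l.succ) ^ 4 := by
      intro w
      rw [lin_cons, lin_cons]
      simp [sg]
      ring
    simp_rw [h1]
    rw [sum_add_distrib, sum_add_distrib, sum_const_cube, ← mul_sum, ← mul_sum, moment2,
      Fin.sum_univ_succ]
    have h2 := ih (fun l => y l.succ)
    set v := ∑ l : Fin N, y l.succ ^ 2
    have h3 : (0 : ℝ) ≤ 2 ^ N * y 0 ^ 4 := by positivity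
    have h4 : 3 * 2 ^ (N + 1) * (y 0 ^ 2 + v) ^ 2 =
        6 * (2 ^ N * y 0 ^ 4) + 12 * (2 ^ N * (y 0 ^ 2 * v)) + 6 * (2 ^ N * v ^ 2) := by ring
    rw [h4]
    nlinarith

/-- anti-concentration -/
lemma anti {N : ℕ} (y : Fin N → ℝ) {σ : ℝ} (hσ : 0 < σ) (hv : 4 * σ ^ 2 ≤ ∑ l, y l ^ 2) :
    (2 : ℝ) ^ N ≤ 10 * ((univ.filter fun e : Fin N → Bool => σ ≤ lin e y).card : ℝ) := by
  set v := ∑ l, y l ^ 2 with hvdef
  have hv0 : 0 < v := by nlinarith [sq_nonneg σ, pow_pos hσ 2]
  set A := (univ.filter fun e : Fin N → Bool => σ ≤ lin e y) with hA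
  set B := (univ.filter fun e : Fin N → Bool => lin e y ≤ -σ) with hB
  have hAB : (A.card : ℝ) = B.card := by
    have h1 : (A.card : ℝ) = ∑ e : Fin N → Bool, if σ ≤ lin e y then (1 : ℝ) else 0 := by
      rw [hA]; simp
    have h2 : (B.card : ℝ) = ∑ e : Fin N → Bool, if lin e y ≤ -σ then (1 : ℝ) else 0 := by
      rw [hB]; simp
    rw [h1, h2, ← sum_neg_comp]
    apply sum_congr rfl
    intro e _
    rw [lin_neg]
    have : (σ ≤ -lin e y) = (lin e y ≤ -σ) := by
      apply propext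
      constructor <;> intro h <;> linarith
    simp only [this]
  have hpt : ∀ e : Fin N → Bool, (64 / 729 : ℝ) * ((lin e y ^ 2 - v / 4) * (7 * v - lin e y ^ 2)) ≤
      v ^ 2 * ((if σ ≤ lin e y then (1 : ℝ) else 0) + if lin e y ≤ -σ then (1 : ℝ) else 0) := by
    intro e
    set X := lin e y
    have hupper : (64 / 729 : ℝ) * ((X ^ 2 - v / 4) * (7 * v - X ^ 2)) ≤ v ^ 2 := by
      nlinarith [sq_nonneg (X ^ 2 - 29 / 8 * v)]
    by_cases h1 : σ ≤ X
    · rw [if_pos h1]
      have : (0 : ℝ) ≤ if X ≤ -σ then (1 : ℝ) else 0 := by split_ifs <;> norm_num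
      nlinarith [sq_nonneg v]
    · by_cases h2 : X ≤ -σ
      · rw [if_neg h1, if_pos h2]; linarith
      · rw [if_neg h1, if_neg h2]
        push Not at h1 h2
        have h3 : X ^ 2 ≤ σ ^ 2 := by nlinarith
        have h4 : X ^ 2 - v / 4 ≤ 0 := by linarith
        have h5 : 0 ≤ 7 * v - X ^ 2 := by linarith
        have := mul_nonpos_of_nonpos_of_nonneg h4 h5
        linarith
  have hsum := sum_le_sum fun e (_ : e ∈ (univ : Finset (Fin N → Bool))) => hpt e
  rw [← mul_sum, ← mul_sum, sum_add_distrib] at hsum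
  have e1 : ∑ e : Fin N → Bool, (if σ ≤ lin e y then (1 : ℝ) else 0) = A.card := by
    rw [hA]; simp
  have e2 : ∑ e : Fin N → Bool, (if lin e y ≤ -σ then (1 : ℝ) else 0) = B.card := by
    rw [hB]; simp
  rw [e1, e2, ← hAB] at hsum
  have e3 : ∀ u : ℝ, ∑ e : Fin N → Bool, (lin e y ^ 2 - u / 4) * (7 * u - lin e y ^ 2) =
      29 / 4 * u * ∑ e : Fin N → Bool, lin e y ^ 2 - ∑ e : Fin N → Bool, lin e y ^ 4 -
        2 ^ N * (7 / 4 * u ^ 2) := by
    intro u
    rw [mul_sum, ← sum_const_cube (N := N), ← sum_sub_distrib, ← sum_sub_distrib]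
    apply sum_congr rfl
    intro e _
    ring
  rw [e3 v, moment2] at hsum
  have h4 := moment4 y
  rw [← hvdef] at h4 hsum
  have h5 : (64 / 729 : ℝ) * (5 / 2 * (2 ^ N * v ^ 2)) ≤ v ^ 2 * (A.card + A.card) := by
    refine le_trans ?_ hsum
    nlinarith
  have h6 : v ^ 2 * (2 ^ N / 5) ≤ v ^ 2 * (2 * (A.card : ℝ)) := by
    have : (0 : ℝ) ≤ 2 ^ N * v ^ 2 := by positivity
    nlinarith
  have h7 := le_of_mul_le_mul_left h6 (by positivity)
  linarith

/-- Poincare inequality on the cube -/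
lemma poincare : ∀ {N : ℕ} (f : (Fin N → Bool) → ℝ),
    4 * (2 ^ N * ∑ e, f e ^ 2 - (∑ e, f e) ^ 2) ≤
      2 ^ N * ∑ l, ∑ e, (f e - f (flip l e)) ^ 2 := by
  intro N
  induction N with
  | zero =>
    intro f
    simp
  | succ N ih =>
    intro f
    rw [sum_cons, sum_cons, Fin.sum_univ_succ]
    set f1 : (Fin N → Bool) → ℝ := fun w => f (Fin.cons true w) with hf1
    set f0 : (Fin N → Bool) → ℝ := fun w => f (Fin.cons false w) with hf0
    have h1 := ih f1
    have h0 := ih f0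
    have e0 : ∑ e : Fin (N + 1) → Bool, (f e - f (flip 0 e)) ^ 2 =
        2 * ∑ w : Fin N → Bool, (f1 w - f0 w) ^ 2 := by
      rw [sum_cons, mul_sum]
      apply sum_congr rfl
      intro w _
      have a1 : flip 0 (Fin.cons true w : Fin (N + 1) → Bool) = Fin.cons false w := by
        simp [flip, Fin.update_cons_zero]
      have a2 : flip 0 (Fin.cons false w : Fin (N + 1) → Bool) = Fin.cons true w := by
        simp [flip, Fin.update_cons_zero]
      rw [a1, a2]
      simp only [hf1, hf0]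
      ring
    have e1 : ∑ l : Fin N, ∑ e : Fin (N + 1) → Bool, (f e - f (flip l.succ e)) ^ 2 =
        (∑ l, ∑ w, (f1 w - f1 (flip l w)) ^ 2) + ∑ l, ∑ w, (f0 w - f0 (flip l w)) ^ 2 := by
      rw [← sum_add_distrib]
      apply sum_congr rfl
      intro l _
      rw [sum_cons, sum_add_distrib]
      have a : ∀ (b : Bool) (w : Fin N → Bool),
          flip l.succ (Fin.cons b w : Fin (N + 1) → Bool) = Fin.cons b (flip l w) := by
        intro b w
        simp [flip, Fin.cons_update]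
      simp_rw [a]
      rfl
    rw [e0, e1]
    have e2 : ∑ w : Fin N → Bool, (f (Fin.cons true w) ^ 2 + f (Fin.cons false w) ^ 2) =
        ∑ w, f1 w ^ 2 + ∑ w, f0 w ^ 2 := by rw [sum_add_distrib]
    have e3 : ∑ w : Fin N → Bool, (f (Fin.cons true w) + f (Fin.cons false w)) =
        ∑ w, f1 w + ∑ w, f0 w := by rw [sum_add_distrib]
    rw [e2, e3]
    have hcs : (∑ w : Fin N → Bool, (f1 w - f0 w)) ^ 2 ≤
        2 ^ N * ∑ w : Fin N → Bool, (f1 w - f0 w) ^ 2 := by
      have := sq_sum_le_card_mul_sum_sq (s := (univ : Finset (Fin N → Bool)))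
        (f := fun w => f1 w - f0 w)
      simpa using this
    rw [sum_sub_distrib] at hcs
    rw [pow_succ]
    nlinarith

end Vale.Agent.P318.H724
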