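import Vale.Agent.P318.H724.Pair
import Vale.Agent.P318.H867.Cut

/-! Spread capacities: the metric relaxation loses only the logarithm of `n / m`. -/

open Finset

set_option linter.unusedSectionVars false

namespace Vale.Agent.P318.H724

open Vale.Agent.P318.H867

variable {V : Type*} [Fintype V] [DecidableEq V] [Nontrivial V] {c d : V → V → ℝ}

/-- the bound for 1-Lipschitz functions -/
lemma lip_bound (hc : ∀ i j, 0 ≤ c i j) (hsym : ∀ i j, c i j = c j i) {f : V → ℝ}
    (hf : ∀ x y, |f x - f y| ≤ d x y) :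
    phi c * ∑ x, ∑ y, |f x - f y| ≤ ∑ x, ∑ y, c x y * d x y :=
  (coarea hc hsym f).trans (sum_le_sum fun x _ => sum_le_sum fun y _ =>
    mul_le_mul_of_nonneg_left (hf x y) (hc x y))

/-- the cut of one vertex -/
lemma vertex_cut (hc : ∀ i j, 0 ≤ c i j) (v : V) :
    phi c * (Fintype.card V : ℝ) ≤ 2 * ∑ j, c v j := by
  have h1 := phi_mul_le hc {v}
  have h2 : cutCap c {v} ≤ ∑ j, c v j := by
    unfold cutCap
    rw [sum_singleton]
    exact sum_le_sum_of_subset_of_nonneg (subset_univ _) fun j _ _ => hc v j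
  have h3 : (2 : ℝ) ≤ Fintype.card V := by
    have : 1 < Fintype.card V := Fintype.one_lt_card
    exact_mod_cast this
  have h4 : (({v}ᶜ : Finset V).card : ℝ) = Fintype.card V - 1 := by
    rw [card_compl, card_singleton, Nat.cast_sub (by
      have : 1 < Fintype.card V := Fintype.one_lt_card
      omega)]
    simp
  rw [card_singleton, h4] at h1
  have h5 := phi_nonneg hc
  push_cast at h1
  nlinarith

/-- Case A: one ball of radius `δ / 16` contains three quarters of the points. -/
lemma case_ball (hc : ∀ i j, 0 ≤ c i j) (hsym : ∀ i j, c i j = c j i)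
    (hd : ∀ x y, 0 ≤ d x y) (hs : ∀ x y, d x y = d y x) (ht : ∀ x y z, d x z ≤ d x y + d y z)
    {δ : ℝ} (hδ : 0 < δ) (hS : ∑ x, ∑ y, d x y = δ * (Fintype.card V : ℝ) ^ 2) (a : V)
    (ha : 3 * (Fintype.card V : ℝ) ≤ 4 * (ball d a (δ / 16)).card) :
    phi c * ∑ x, ∑ y, d x y ≤ 4 * ∑ x, ∑ y, c x y * d x y := by
  set n : ℝ := (Fintype.card V : ℝ) with hn
  have hn0 : 0 < n := by
    have : 0 < Fintype.card V := Fintype.card_pos
    rw [hn]; exact_mod_cast this
  set F := ∑ x, d a x with hF
  have h1 : δ * n ^ 2 ≤ 2 * n * F := by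
    rw [← hS]
    calc ∑ x, ∑ y, d x y ≤ ∑ x, ∑ y, (d a x + d a y) := by
          apply sum_le_sum; intro x _; apply sum_le_sum; intro y _
          have := ht x a y
          rw [hs x a] at this
          exact this
      _ = 2 * n * F := by
          simp only [sum_add_distrib, sum_const, card_univ, nsmul_eq_mul, ← mul_sum, ← hF, ← hn]
          ring
  have h2 : n * δ / 2 ≤ F := by
    have : n * (n * δ) ≤ n * (2 * F) := by nlinarith
    have := le_of_mul_le_mul_left this hn0
    linarith
  have hl := lip_bound (c := c) (d := d) hc hsym (f := fun x => d a x) (by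
    intro x y
    rw [abs_le]
    have h3 := ht a x y
    have h4 := ht a y x
    rw [hs y x] at h4
    constructor <;> linarith)
  have h3 : ((ball d a (δ / 16)).card : ℝ) * (F - n * (δ / 16)) ≤
      ∑ x, ∑ y, |d a x - d a y| := by
    rw [sum_comm]
    calc ((ball d a (δ / 16)).card : ℝ) * (F - n * (δ / 16))
        = ∑ y ∈ ball d a (δ / 16), (F - n * (δ / 16)) := by rw [sum_const, nsmul_eq_mul]
      _ ≤ ∑ y ∈ ball d a (δ / 16), ∑ x, |d a x - d a y| := by
          apply sum_le_sum
          intro y hy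
          rw [mem_ball] at hy
          calc F - n * (δ / 16) = ∑ x, (d a x - δ / 16) := by
                rw [sum_sub_distrib, sum_const, card_univ, nsmul_eq_mul]
            _ ≤ _ := by
                apply sum_le_sum
                intro x _
                exact le_trans (by linarith) (le_abs_self _)
      _ ≤ _ := sum_le_sum_of_subset_of_nonneg (subset_univ _) fun y _ _ =>
          sum_nonneg fun x _ => abs_nonneg _
  have h4 : (21 / 64 : ℝ) * (δ * n ^ 2) ≤ ∑ x, ∑ y, |d a x - d a y| := by
    refine le_trans ?_ h3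
    have h5 : 7 / 16 * (n * δ) ≤ F - n * (δ / 16) := by linarith
    have h6 : 3 / 4 * n ≤ ((ball d a (δ / 16)).card : ℝ) := by linarith
    calc (21 / 64 : ℝ) * (δ * n ^ 2) = (3 / 4 * n) * (7 / 16 * (n * δ)) := by ring
      _ ≤ _ := mul_le_mul h6 h5 (by positivity) (by positivity)
  have hphi := phi_nonneg hc
  have hQ : 0 ≤ ∑ x, ∑ y, c x y * d x y :=
    sum_nonneg fun x _ => sum_nonneg fun y _ => mul_nonneg (hc x y) (hd x y)
  have h7 := mul_le_mul_of_nonneg_left h4 hphi
  rw [hS]
  have h8 : phi c * ((21 / 64 : ℝ) * (δ * n ^ 2)) = 21 / 64 * (phi c * (δ * n ^ 2)) := by ring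
  rw [h8] at h7
  linarith

/-- Case B: many pairs of points with large balls at distance more than `δ / 16`. -/
lemma case_pairs (hc : ∀ i j, 0 ≤ c i j) (hsym : ∀ i j, c i j = c j i)
    (hd : ∀ x y, 0 ≤ d x y) (hs : ∀ x y, d x y = d y x) (ht : ∀ x y z, d x z ≤ d x y + d y z)
    {δ : ℝ} (hδ : 0 < δ) {m L : ℕ} (hm : 1 ≤ m) (hL1 : 1 ≤ L) (hL : Fintype.card V < m * 2 ^ L)
    {r : ℝ} (hr : r ≤ δ / 64) (Gd : Finset V) (hG : ∀ x ∈ Gd, m ≤ (ball d x r).card)
    (hGc : 15 * (Fintype.card V : ℝ) ≤ 16 * Gd.card)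
    (hball : ∀ a, 4 * ((ball d a (δ / 16)).card : ℝ) ≤ 3 * Fintype.card V) :
    phi c * (δ * (Fintype.card V : ℝ) ^ 2) ≤ 8739 * L * ∑ x, ∑ y, c x y * d x y := by
  set n : ℝ := (Fintype.card V : ℝ) with hn
  have hn0 : 0 < n := by
    have : 0 < Fintype.card V := Fintype.card_pos
    rw [hn]; exact_mod_cast this
  have hL1' : (1 : ℝ) ≤ L := by exact_mod_cast hL1
  set h : ℝ := δ / (128 * L) with hh
  have hh0 : 0 < h := by positivity
  have hLh : L * h = δ / 128 := by rw [hh]; field_simp
  set Q := ∑ x, ∑ y, c x y * d x y with hQ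
  have hphi := phi_nonneg hc
  set k : ℕ → ℕ := fun t => Fintype.card V / (6 * (m * 2 ^ t)) with hk
  -- upper bound for each level
  have hup : ∀ t, phi c * ((∑ a : Fin (k t + 1) → V, ∑ x, ∑ y, |fr d a x - fr d a y|) /
      n ^ (k t + 1)) ≤ Q := by
    intro t
    rw [← mul_div_assoc, div_le_iff₀ (by positivity), mul_sum]
    calc ∑ a : Fin (k t + 1) → V, phi c * ∑ x, ∑ y, |fr d a x - fr d a y|
        ≤ ∑ a : Fin (k t + 1) → V, Q :=
          sum_le_sum fun a _ => lip_bound hc hsym (fr_lip hs ht a)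
      _ = Q * n ^ (k t + 1) := by
          rw [sum_const, card_univ, nsmul_eq_mul]
          simp only [Fintype.card_fun, Fintype.card_fin, Nat.cast_pow, ← hn]
          ring
  -- lower bound for each pair
  have hlow : ∀ x ∈ Gd, ∀ y ∈ Gd \ ball d x (δ / 16),
      δ / 128 ≤ 12 * ∑ t ∈ range L, (∑ a : Fin (k t + 1) → V, |fr d a x - fr d a y|) /
        n ^ (k t + 1) := by
    intro x hx y hy
    rw [mem_sdiff, mem_ball, not_le] at hy
    have h1 := pair hs ht (x := x) (y := y) (r := r) (h := h) hh0.le (J := 2 * L) (by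
      push_cast
      have : 2 * (L : ℝ) * h = 2 * (L * h) := by ring
      rw [this, hLh]
      linarith) hm hL (hG x hx) (hG y hy.1)
    have h2 : (((2 * L : ℕ) : ℝ) - L) * h = δ / 128 := by
      push_cast
      rw [← hLh]; ring
    rw [h2] at h1
    exact h1
  -- number of pairs
  have hcount : (45 / 256 : ℝ) * n ^ 2 * (δ / 128) ≤ ∑ x ∈ Gd, ∑ y ∈ Gd \ ball d x (δ / 16),
      (δ / 128) := by
    have h1 : ∀ x ∈ Gd, (3 / 16 * n) * (δ / 128) ≤ ∑ y ∈ Gd \ ball d x (δ / 16), (δ / 128) := by
      intro x _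
      rw [sum_const, nsmul_eq_mul]
      apply mul_le_mul_of_nonneg_right _ (by positivity)
      have h2 : (Gd.card : ℝ) ≤ (Gd \ ball d x (δ / 16)).card + (ball d x (δ / 16)).card := by
        have : Gd.card ≤ (Gd \ ball d x (δ / 16)).card + (ball d x (δ / 16)).card := by
          rw [card_sdiff_add_card]
          exact card_le_card subset_union_left
        exact_mod_cast this
      have h3 := hball x
      linarith
    calc (45 / 256 : ℝ) * n ^ 2 * (δ / 128) = (15 / 16 * n) * ((3 / 16 * n) * (δ / 128)) := by ring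
      _ ≤ Gd.card * ((3 / 16 * n) * (δ / 128)) :=
          mul_le_mul_of_nonneg_right (by linarith) (by positivity)
      _ = ∑ x ∈ Gd, (3 / 16 * n) * (δ / 128) := by rw [sum_const, nsmul_eq_mul]
      _ ≤ _ := sum_le_sum h1
  have hcomp : ∑ x ∈ Gd, ∑ y ∈ Gd \ ball d x (δ / 16), (δ / 128) ≤
      12 * ∑ t ∈ range L, (∑ a : Fin (k t + 1) → V, ∑ x, ∑ y, |fr d a x - fr d a y|) /
        n ^ (k t + 1) := by
    calc ∑ x ∈ Gd, ∑ y ∈ Gd \ ball d x (δ / 16), (δ / 128)
        ≤ ∑ x ∈ Gd, ∑ y ∈ Gd \ ball d x (δ / 16), 12 * ∑ t ∈ range L,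
          (∑ a : Fin (k t + 1) → V, |fr d a x - fr d a y|) / n ^ (k t + 1) :=
          sum_le_sum fun x hx => sum_le_sum fun y hy => hlow x hx y hy
      _ ≤ ∑ x, ∑ y, 12 * ∑ t ∈ range L,
          (∑ a : Fin (k t + 1) → V, |fr d a x - fr d a y|) / n ^ (k t + 1) := by
          have hnn : ∀ x y, 0 ≤ 12 * ∑ t ∈ range L,
              (∑ a : Fin (k t + 1) → V, |fr d a x - fr d a y|) / n ^ (k t + 1) := by
            intro x y
            have : 0 ≤ ∑ t ∈ range L,
              (∑ a : Fin (k t + 1) → V, |fr d a x - fr d a y|) / n ^ (k t + 1) :=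
              sum_nonneg fun t _ => div_nonneg (sum_nonneg fun a _ => abs_nonneg _) (by positivity)
            linarith
          refine (sum_le_sum fun x _ => sum_le_sum_of_subset_of_nonneg (subset_univ _)
            fun y _ _ => hnn x y).trans ?_
          exact sum_le_sum_of_subset_of_nonneg (subset_univ _) fun x _ _ =>
            sum_nonneg fun y _ => hnn x y
      _ = _ := by
          simp_rw [← mul_sum]
          congr 1
          have e1 : ∀ x : V, ∑ y, ∑ t ∈ range L,
              (∑ a : Fin (k t + 1) → V, |fr d a x - fr d a y|) / n ^ (k t + 1) =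
              ∑ t ∈ range L, ∑ y,
              (∑ a : Fin (k t + 1) → V, |fr d a x - fr d a y|) / n ^ (k t + 1) :=
            fun x => sum_comm
          simp_rw [e1]
          rw [sum_comm]
          apply sum_congr rfl
          intro t _
          simp_rw [← sum_div]
          congr 1
          have e2 : ∀ x : V, ∑ y, ∑ a : Fin (k t + 1) → V, |fr d a x - fr d a y| =
              ∑ a : Fin (k t + 1) → V, ∑ y, |fr d a x - fr d a y| := fun x => sum_comm
          simp_rw [e2]
          rw [sum_comm]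
  have h1 := hcount.trans hcomp
  have h2 := mul_le_mul_of_nonneg_left h1 hphi
  have h3 : phi c * (12 * ∑ t ∈ range L,
      (∑ a : Fin (k t + 1) → V, ∑ x, ∑ y, |fr d a x - fr d a y|) / n ^ (k t + 1)) ≤
      12 * (L * Q) := by
    have e : phi c * (12 * ∑ t ∈ range L,
      (∑ a : Fin (k t + 1) → V, ∑ x, ∑ y, |fr d a x - fr d a y|) / n ^ (k t + 1)) =
      12 * ∑ t ∈ range L, phi c * ((∑ a : Fin (k t + 1) → V, ∑ x, ∑ y,
        |fr d a x - fr d a y|) / n ^ (k t + 1)) := by
      rw [← mul_sum]; ring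
    rw [e]
    apply mul_le_mul_of_nonneg_left _ (by norm_num)
    calc _ ≤ ∑ t ∈ range L, Q := sum_le_sum fun t _ => hup t
      _ = L * Q := by rw [sum_const, card_range, nsmul_eq_mul]
  have h4 : phi c * ((45 / 256 : ℝ) * n ^ 2 * (δ / 128)) =
      (45 / 32768) * (phi c * (δ * n ^ 2)) := by ring
  rw [h4] at h2
  have hQ0 : 0 ≤ Q := sum_nonneg fun x _ => sum_nonneg fun y _ => mul_nonneg (hc x y) (hd x y)
  have hLQ : 0 ≤ L * Q := by positivity
  have h5 : (45 / 32768) * (phi c * (δ * n ^ 2)) ≤ 12 * (L * Q) := h2.trans h3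
  linarith

/-- **Main theorem, for one semimetric.** -/
theorem main (hc : ∀ i j, 0 ≤ c i j) (hsym : ∀ i j, c i j = c j i) {m : ℕ} (hm : 1 ≤ m)
    (E : Finset V) (hE : 32 * E.card ≤ Fintype.card V)
    (hspread : ∀ i ∉ E, ∀ S : Finset V, 0 < ∑ j, c i j →
      ∑ j, c i j ≤ 2 * ∑ j ∈ S, c i j → m ≤ S.card)
    (hd : ∀ x y, 0 ≤ d x y) (hs : ∀ x y, d x y = d y x) (ht : ∀ x y z, d x z ≤ d x y + d y z) :
    phi c * ∑ x, ∑ y, d x y ≤
      8739 * ((Nat.log 2 (Fintype.card V / m) : ℝ) + 1) * ∑ x, ∑ y, c x y * d x y := by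
  have hphi := phi_nonneg hc
  set Q := ∑ x, ∑ y, c x y * d x y with hQ
  have hQ0 : 0 ≤ Q := sum_nonneg fun x _ => sum_nonneg fun y _ => mul_nonneg (hc x y) (hd x y)
  set n : ℝ := (Fintype.card V : ℝ) with hn
  have hn0 : 0 < n := by
    have : 0 < Fintype.card V := Fintype.card_pos
    rw [hn]; exact_mod_cast this
  set S := ∑ x, ∑ y, d x y with hSdef
  have hS0 : 0 ≤ S := sum_nonneg fun x _ => sum_nonneg fun y _ => hd x y
  set ℓ : ℝ := (Nat.log 2 (Fintype.card V / m) : ℝ) with hℓ
  have hℓ0 : 0 ≤ ℓ := by positivity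
  have hRHS : 0 ≤ 8739 * (ℓ + 1) * Q := by positivity
  have hKQ : ∀ K : ℝ, 0 ≤ K → K ≤ 8739 → K * Q ≤ 8739 * (ℓ + 1) * Q := by
    intro K hK0 hK
    apply mul_le_mul_of_nonneg_right _ hQ0
    nlinarith
  -- trivial case
  rcases hS0.eq_or_lt with hS00 | hSpos
  · rw [← hS00, mul_zero]; exact hRHS
  set δ : ℝ := S / n ^ 2 with hδ
  have hδ0 : 0 < δ := by positivity
  have hSδ : S = δ * n ^ 2 := by rw [hδ]; field_simp
  -- the least degree outside the exceptional set
  have hEc : (Eᶜ).Nonempty := by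
    rw [← card_pos, card_compl]
    have : 1 < Fintype.card V := Fintype.one_lt_card
    omega
  obtain ⟨v, hv, hvmin⟩ := exists_min_image Eᶜ (fun i => ∑ j, c i j) hEc
  set D := ∑ j, c v j with hD
  have hD0 : 0 ≤ D := sum_nonneg fun j _ => hc v j
  have hcut : phi c * n ≤ 2 * D := vertex_cut hc v
  rcases hD0.eq_or_lt with hD00 | hDpos
  · rw [← hD00, mul_zero] at hcut
    have : phi c ≤ 0 := by
      by_contra hcon
      push Not at hcon
      have := mul_pos hcon hn0
      linarith
    have h0 : phi c = 0 := le_antisymm this hphi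
    rw [h0, zero_mul]; exact hRHS
  set r : ℝ := 64 * Q / (n * D) with hr
  have hr0 : 0 ≤ r := by positivity
  have hrD : r * D / 2 = 32 * Q / n := by rw [hr]; field_simp; ring
  rcases lt_or_ge (δ / 64) r with hlarge | hsmall
  · -- the cut of the vertex of least degree is good enough
    have h1 : δ * (n * D) < 4096 * Q := by
      rw [hr, lt_div_iff₀ (by positivity)] at hlarge
      linarith
    have h2 : phi c * S ≤ 8192 * Q := by
      rw [hSδ]
      have h3 : phi c * n * (δ * n) ≤ 2 * D * (δ * n) :=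
        mul_le_mul_of_nonneg_right hcut (by positivity)
      nlinarith
    exact h2.trans (hKQ _ (by norm_num) (by norm_num))
  · -- the good points
    set Gd : Finset V := univ.filter fun x => x ∉ E ∧ ∑ y, c x y * d x y ≤ 32 * Q / n with hGd
    have hG : ∀ x ∈ Gd, m ≤ (ball d x r).card := by
      intro x hx
      rw [hGd, mem_filter] at hx
      obtain ⟨-, hxE, hxQ⟩ := hx
      have hdx : D ≤ ∑ j, c x j := hvmin x (by rw [mem_compl]; exact hxE)
      apply hspread x hxE _ (by linarith)
      by_contra hcon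
      push Not at hcon
      have hsplit : ∑ j ∈ ball d x r, c x j + ∑ j ∈ (ball d x r)ᶜ, c x j = ∑ j, c x j :=
        sum_add_sum_compl _ _
      have hT : D / 2 < ∑ j ∈ (ball d x r)ᶜ, c x j := by linarith
      obtain ⟨y, hy, hcy⟩ : ∃ y ∈ (ball d x r)ᶜ, 0 < c x y := by
        by_contra hno
        push Not at hno
        have := sum_nonpos hno
        linarith
      have hlt : ∑ j ∈ (ball d x r)ᶜ, c x j * r < ∑ j ∈ (ball d x r)ᶜ, c x j * d x j := by
        apply sum_lt_sum
        · intro j hj
          rw [mem_compl, mem_ball, not_le] at hj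
          exact mul_le_mul_of_nonneg_left hj.le (hc x j)
        · rw [mem_compl, mem_ball, not_le] at hy
          refine ⟨y, by rw [mem_compl, mem_ball, not_le]; exact hy, ?_⟩
          exact mul_lt_mul_of_pos_left hy hcy
      rw [← sum_mul] at hlt
      have h2 : ∑ j ∈ (ball d x r)ᶜ, c x j * d x j ≤ ∑ y, c x y * d x y :=
        sum_le_sum_of_subset_of_nonneg (subset_univ _) fun j _ _ => mul_nonneg (hc x j) (hd x j)
      have h3 : D / 2 * r ≤ (∑ j ∈ (ball d x r)ᶜ, c x j) * r :=
        mul_le_mul_of_nonneg_right hT.le hr0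
      have h4 : D / 2 * r = 32 * Q / n := by rw [← hrD]; ring
      linarith
    -- most points are good
    have hGc : 15 * n ≤ 16 * Gd.card := by
      set B : Finset V := univ.filter fun x => 32 * Q / n < ∑ y, c x y * d x y with hB
      have hcov : (univ : Finset V) ⊆ Gd ∪ (E ∪ B) := by
        intro x _
        by_cases h1 : x ∈ E
        · exact mem_union_right _ (mem_union_left _ h1)
        · by_cases h2 : ∑ y, c x y * d x y ≤ 32 * Q / n
          · apply mem_union_left
            rw [hGd, mem_filter]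
            exact ⟨mem_univ _, h1, h2⟩
          · apply mem_union_right
            apply mem_union_right
            rw [hB, mem_filter]
            exact ⟨mem_univ _, not_le.1 h2⟩
      have h1 : n ≤ Gd.card + (E.card + B.card) := by
        have h2 := card_le_card hcov
        rw [card_univ] at h2
        have h3 : Fintype.card V ≤ Gd.card + (E.card + B.card) :=
          h2.trans ((card_union_le _ _).trans (Nat.add_le_add_left (card_union_le _ _) _))
        rw [hn]; exact_mod_cast h3
      have h2 : 32 * (E.card : ℝ) ≤ n := by rw [hn]; exact_mod_cast hE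
      have h3 : 32 * (B.card : ℝ) ≤ n := by
        by_contra hcon
        push Not at hcon
        have hBne : B.Nonempty := by
          rw [← card_pos]
          have : (0 : ℝ) < B.card := by linarith
          exact_mod_cast this
        have h4 : ∑ x ∈ B, 32 * Q / n < ∑ x ∈ B, ∑ y, c x y * d x y := by
          apply sum_lt_sum_of_nonempty hBne
          intro x hx
          rw [hB, mem_filter] at hx
          exact hx.2
        rw [sum_const, nsmul_eq_mul] at h4
        have h5 : ∑ x ∈ B, ∑ y, c x y * d x y ≤ Q :=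
          sum_le_sum_of_subset_of_nonneg (subset_univ _) fun x _ _ =>
            sum_nonneg fun y _ => mul_nonneg (hc x y) (hd x y)
        have h6 : Q ≤ (B.card : ℝ) * (32 * Q / n) := by
          rw [← mul_div_assoc, le_div_iff₀ hn0]
          nlinarith
        linarith
      linarith
    rcases em (∃ a, 3 * (Fintype.card V : ℝ) ≤ 4 * (ball d a (δ / 16)).card) with hA | hA
    · obtain ⟨a, ha⟩ := hA
      have h1 := case_ball hc hsym hd hs ht hδ0 hSδ a ha
      exact h1.trans (hKQ _ (by norm_num) (by norm_num))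
    · push Not at hA
      have hL : Fintype.card V < m * 2 ^ (Nat.log 2 (Fintype.card V / m) + 1) := by
        have h1 := Nat.lt_pow_succ_log_self (b := 2) (by norm_num) (Fintype.card V / m)
        rw [Nat.div_lt_iff_lt_mul (by omega)] at h1
        rw [mul_comm]
        exact h1
      have h1 := case_pairs hc hsym hd hs ht hδ0 hm (L := Nat.log 2 (Fintype.card V / m) + 1)
        (by omega) hL hsmall Gd hG hGc (fun a => (hA a).le)
      rw [hSδ]
      push_cast at h1
      exact h1

end Vale.Agent.P318.H724
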