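import Vale.Agent.P318.H724.Maxes

/-! Matchings and one step of the potential. -/

open Finset

set_option linter.unusedSectionVars false

namespace Vale.Agent.P318.H724

variable {I : Type*} [Fintype I] [DecidableEq I] {N : ℕ}

/-- a matching of near pairs with a large increment -/
def IsM (x : I → Fin N → ℝ) (Δ σ : ℝ) (e : Fin N → Bool) (M : Finset (I × I)) : Prop :=
  (∀ p ∈ M, sqd x p.1 p.2 ≤ Δ ∧ σ ≤ lin e (x p.2) - lin e (x p.1)) ∧
    Set.InjOn Prod.fst (M : Set (I × I)) ∧ Set.InjOn Prod.snd (M : Set (I × I))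

/-- pairs with a large increment -/
noncomputable def Pe (x : I → Fin N → ℝ) (σ : ℝ) (e : Fin N → Bool) : Finset (I × I) :=
  univ.filter fun p => σ ≤ lin e (x p.2) - lin e (x p.1)

lemma exists_matching {x : I → Fin N → ℝ} {Δ σ γ : ℝ} (hγ : 0 < γ) [Nonempty I]
    (hno : ∀ A B : Finset I, γ * Fintype.card I ≤ A.card → γ * Fintype.card I ≤ B.card →
      ∃ a ∈ A, ∃ b ∈ B, sqd x a b ≤ Δ) (e : Fin N → Bool) :
    ∃ M, IsM x Δ σ e M ∧
      ((Pe x σ e).card : ℝ) / (2 * Fintype.card I) - γ * Fintype.card I ≤ M.card := by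
  classical
  set n : ℝ := (Fintype.card I : ℝ) with hn
  have hn0 : 0 < n := by
    have : 0 < Fintype.card I := Fintype.card_pos
    rw [hn]; exact_mod_cast this
  obtain ⟨M, hM, hmax⟩ := exists_max_image
    ((univ : Finset (Finset (I × I))).filter fun M => IsM x Δ σ e M) card
    ⟨∅, by simp [IsM]⟩
  rw [mem_filter] at hM
  refine ⟨M, hM.2, ?_⟩
  by_contra hcon
  push Not at hcon
  set P : ℝ := ((Pe x σ e).card : ℝ) with hP
  have hPpos : 0 < P := by
    by_contra h
    push Not at h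
    have h1 : P / (2 * n) ≤ 0 := div_nonpos_of_nonpos_of_nonneg h (by positivity)
    have h2 : 0 < γ * n := by positivity
    have h3 : (0 : ℝ) ≤ M.card := by positivity
    linarith
  set dg : I → Finset I := fun j => univ.filter fun i => σ ≤ lin e (x j) - lin e (x i) with hdg
  have hsum : P = ∑ j, ((dg j).card : ℝ) := by
    rw [hP]
    have : (Pe x σ e).card = ∑ j, (dg j).card := by
      unfold Pe
      rw [card_filter, Fintype.sum_prod_type_right]
      apply sum_congr rfl
      intro j _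
      simp only [hdg]
      rw [card_filter]
    rw [this]; push_cast; rfl
  set J : Finset I := univ.filter fun j => P / (2 * n) ≤ ((dg j).card : ℝ) with hJ
  have hdgle : ∀ j, ((dg j).card : ℝ) ≤ n := fun j => by
    rw [hn]; exact_mod_cast card_le_univ _
  have hJcard : P / (2 * n) ≤ (J.card : ℝ) := by
    have h1 : ∀ j, ((dg j).card : ℝ) ≤ (if j ∈ J then n else 0) + P / (2 * n) := by
      intro j
      by_cases hj : j ∈ J
      · rw [if_pos hj]
        have := hdgle j
        have h2 : 0 ≤ P / (2 * n) := by positivity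
        linarith
      · rw [if_neg hj]
        rw [hJ, mem_filter] at hj
        push Not at hj
        have := hj (mem_univ _)
        linarith
    have h2 : P ≤ J.card * n + n * (P / (2 * n)) := by
      calc P = ∑ j, ((dg j).card : ℝ) := hsum
        _ ≤ ∑ j, ((if j ∈ J then n else 0) + P / (2 * n)) := sum_le_sum fun j _ => h1 j
        _ = J.card * n + n * (P / (2 * n)) := by
          rw [sum_add_distrib, ← sum_filter, sum_const, sum_const, nsmul_eq_mul, nsmul_eq_mul,
            card_univ]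
          simp [hn]
    have h3 : n * (P / (2 * n)) = P / 2 := by field_simp
    rw [h3] at h2
    rw [div_le_iff₀ (by positivity)]
    linarith
  have hJne : J.Nonempty := by
    rw [← card_pos]
    have h1 : 0 < P / (2 * n) := by positivity
    have : (0 : ℝ) < J.card := by linarith
    exact_mod_cast this
  obtain ⟨j0, hj0, hmin⟩ := exists_min_image J (fun j => lin e (x j)) hJne
  have hj0' : P / (2 * n) ≤ ((dg j0).card : ℝ) := by
    rw [hJ, mem_filter] at hj0
    exact hj0.2
  set A : Finset I := dg j0 \ M.image Prod.fst with hA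
  set B : Finset I := J \ M.image Prod.snd with hB
  have hAc : γ * n ≤ A.card := by
    have h1 : ((dg j0).card : ℝ) ≤ A.card + M.card := by
      have h2 : (dg j0).card ≤ A.card + (M.image Prod.fst).card := by
        rw [hA, card_sdiff_add_card]
        exact card_le_card subset_union_left
      have h3 : (M.image Prod.fst).card ≤ M.card := card_image_le
      exact_mod_cast h2.trans (Nat.add_le_add_left h3 _)
    linarith
  have hBc : γ * n ≤ B.card := by
    have h1 : (J.card : ℝ) ≤ B.card + M.card := by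
      have h2 : J.card ≤ B.card + (M.image Prod.snd).card := by
        rw [hB, card_sdiff_add_card]
        exact card_le_card subset_union_left
      have h3 : (M.image Prod.snd).card ≤ M.card := card_image_le
      exact_mod_cast h2.trans (Nat.add_le_add_left h3 _)
    linarith
  obtain ⟨a, ha, b, hb, hab⟩ := hno A B hAc hBc
  rw [hA, mem_sdiff, mem_image] at ha
  rw [hB, mem_sdiff, mem_image] at hb
  have hab2 : σ ≤ lin e (x b) - lin e (x a) := by
    have h1 := hmin b hb.1
    have h2 : σ ≤ lin e (x j0) - lin e (x a) := by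
      have := ha.1
      simp only [hdg, mem_filter, mem_univ, true_and] at this
      exact this
    linarith
  have hnew : (a, b) ∉ M := fun h => ha.2 ⟨(a, b), h, rfl⟩
  have hvalid : IsM x Δ σ e (insert (a, b) M) := by
    refine ⟨?_, ?_, ?_⟩
    · intro p hp
      rw [mem_insert] at hp
      rcases hp with rfl | hp
      · exact ⟨hab, hab2⟩
      · exact hM.2.1 p hp
    · rw [coe_insert, Set.injOn_insert (by simpa using hnew)]
      refine ⟨hM.2.2.1, ?_⟩
      rintro ⟨p, hp, hpa⟩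
      exact ha.2 ⟨p, by simpa using hp, hpa⟩
    · rw [coe_insert, Set.injOn_insert (by simpa using hnew)]
      refine ⟨hM.2.2.2, ?_⟩
      rintro ⟨p, hp, hpb⟩
      exact hb.2 ⟨p, by simpa using hp, hpb⟩
  have h1 := hmax (insert (a, b) M) (by rw [mem_filter]; exact ⟨mem_univ _, hvalid⟩)
  rw [card_insert_of_notMem hnew] at h1
  omega

/-- one half of the step -/
lemma half_step {x : I → Fin N → ℝ} (ht : ∀ i j k, sqd x i k ≤ sqd x i j + sqd x j k)
    {s Δ σ : ℝ} (hs : 0 ≤ s) (hΔ : 0 ≤ Δ) {e : Fin N → Bool} (T : Finset (I × I))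
    (u v : I × I → I) (hu : Set.InjOn u (T : Set (I × I)))
    (hT : ∀ p ∈ T, sqd x (u p) (v p) ≤ Δ ∧ σ ≤ lin e (x (v p)) - lin e (x (u p))) :
    ∑ i, Y x s e i + ∑ p ∈ T, (Y x s e (v p) - Y x s e (u p) + σ) ≤ ∑ i, Y x (s + Δ) e i := by
  have h1 : ∑ p ∈ T, (Y x s e (v p) - Y x s e (u p) + σ) ≤
      ∑ p ∈ T, (Y x (s + Δ) e (u p) - Y x s e (u p)) := by
    apply sum_le_sum
    intro p hp
    obtain ⟨h2, h3⟩ := hT p hp
    have h4 := Y_step ht hs hΔ (e := e) h2
    linarith
  have h2 : ∑ p ∈ T, (Y x (s + Δ) e (u p) - Y x s e (u p)) ≤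
      ∑ i, (Y x (s + Δ) e i - Y x s e i) := by
    rw [← sum_image (f := fun i => Y x (s + Δ) e i - Y x s e i) (g := u) (s := T) hu]
    apply sum_le_sum_of_subset_of_nonneg (subset_univ _)
    intro i _ _
    have := Y_mono ht hs hΔ (e := e) (i := i)
    linarith
  have h3 : ∑ i, (Y x (s + Δ) e i - Y x s e i) = ∑ i, Y x (s + Δ) e i - ∑ i, Y x s e i := by
    rw [sum_sub_distrib]
  rw [h3] at h2
  linarith

/-- one step of the potential for a sign vector and its opposite -/
lemma full_step {x : I → Fin N → ℝ} (ht : ∀ i j k, sqd x i k ≤ sqd x i j + sqd x j k)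
    {s Δ σ : ℝ} (hs : 0 ≤ s) (hΔ : 0 ≤ Δ) {e : Fin N → Bool} {M : Finset (I × I)}
    (hM : IsM x Δ σ e M) :
    ∑ i, Y x s e i + ∑ i, Y x s (neg e) i + 2 * σ * M.card -
      2 * ∑ i, |Y x s e i - Y x s (neg e) i| ≤
      ∑ i, Y x (s + Δ) e i + ∑ i, Y x (s + Δ) (neg e) i := by
  have h1 := half_step ht hs hΔ (σ := σ) (e := e) M Prod.fst Prod.snd hM.2.1 hM.1
  have h2 := half_step ht hs hΔ (σ := σ) (e := neg e) M Prod.snd Prod.fst hM.2.2 (by
    intro p hp
    obtain ⟨h3, h4⟩ := hM.1 p hp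
    refine ⟨by rw [sqd_comm]; exact h3, ?_⟩
    rw [lin_neg, lin_neg]
    linarith)
  set Z : I → ℝ := fun i => Y x s e i - Y x s (neg e) i with hZ
  have h3 : ∑ p ∈ M, |Z p.1| ≤ ∑ i, |Z i| := by
    rw [← sum_image (f := fun i => |Z i|) (g := Prod.fst) (s := M) hM.2.1]
    exact sum_le_sum_of_subset_of_nonneg (subset_univ _) fun i _ _ => abs_nonneg _
  have h4 : ∑ p ∈ M, |Z p.2| ≤ ∑ i, |Z i| := by
    rw [← sum_image (f := fun i => |Z i|) (g := Prod.snd) (s := M) hM.2.2]
    exact sum_le_sum_of_subset_of_nonneg (subset_univ _) fun i _ _ => abs_nonneg _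
  have h5 : ∑ p ∈ M, (2 * σ - |Z p.1| - |Z p.2|) ≤
      ∑ p ∈ M, (Y x s e p.2 - Y x s e p.1 + σ) +
        ∑ p ∈ M, (Y x s (neg e) p.1 - Y x s (neg e) p.2 + σ) := by
    rw [← sum_add_distrib]
    apply sum_le_sum
    intro p _
    have a1 := neg_abs_le (Z p.2)
    have a2 := le_abs_self (Z p.1)
    simp only [hZ] at a1 a2 ⊢
    linarith
  rw [sum_sub_distrib, sum_sub_distrib, sum_const, nsmul_eq_mul] at h5
  linarith

/-- one step of the potential in mean -/
theorem step {x : I → Fin N → ℝ} (ht : ∀ i j k, sqd x i k ≤ sqd x i j + sqd x j k) [Nonempty I]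
    {s Δ σ : ℝ} (hs : 0 ≤ s) (hs2 : 2 * s ≤ (σ / 960) ^ 2) (hΔ : 0 ≤ Δ) (hσ : 0 < σ)
    (hP : (Fintype.card I : ℝ) ^ 2 ≤ 6 * ((univ.filter fun p : I × I =>
      4 * σ ^ 2 ≤ sqd x p.1 p.2).card : ℝ))
    (hno : ∀ A B : Finset I, (1 / 240 : ℝ) * Fintype.card I ≤ A.card →
      (1 / 240 : ℝ) * Fintype.card I ≤ B.card → ∃ a ∈ A, ∃ b ∈ B, sqd x a b ≤ Δ) :
    ∑ e, ∑ i, Y x s e i + 2 ^ N * (Fintype.card I * (σ / 480)) ≤ ∑ e, ∑ i, Y x (s + Δ) e i := by
  set n : ℝ := (Fintype.card I : ℝ) with hn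
  have hn0 : 0 < n := by
    have : 0 < Fintype.card I := Fintype.card_pos
    rw [hn]; exact_mod_cast this
  -- mean number of pairs
  have hmean : (2 : ℝ) ^ N * (n ^ 2 / 60) ≤ ∑ e, ((Pe x σ e).card : ℝ) := by
    have h1 : ∑ e, ((Pe x σ e).card : ℝ) =
        ∑ p : I × I, ((univ.filter fun e : Fin N → Bool =>
          σ ≤ lin e (x p.2) - lin e (x p.1)).card : ℝ) := by
      have h2 : ∀ e, ((Pe x σ e).card : ℝ) =
          ∑ p : I × I, if σ ≤ lin e (x p.2) - lin e (x p.1) then (1 : ℝ) else 0 := by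
        intro e
        unfold Pe
        simp
      simp_rw [h2]
      rw [sum_comm]
      apply sum_congr rfl
      intro p _
      simp
    rw [h1]
    have h3 : ∀ p ∈ (univ.filter fun p : I × I => 4 * σ ^ 2 ≤ sqd x p.1 p.2),
        (2 : ℝ) ^ N / 10 ≤ ((univ.filter fun e : Fin N → Bool =>
          σ ≤ lin e (x p.2) - lin e (x p.1)).card : ℝ) := by
      intro p hp
      rw [mem_filter] at hp
      have h4 := anti (N := N) (fun l => x p.2 l - x p.1 l) hσ (by
        have := hp.2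
        rw [sqd_comm] at this
        exact this)
      have h5 : ∀ e : Fin N → Bool, lin e (fun l => x p.2 l - x p.1 l) =
          lin e (x p.2) - lin e (x p.1) := fun e => lin_sub e _ _
      simp_rw [h5] at h4
      linarith
    calc (2 : ℝ) ^ N * (n ^ 2 / 60) = (n ^ 2 / 6) * ((2 : ℝ) ^ N / 10) := by ring
      _ ≤ ((univ.filter fun p : I × I => 4 * σ ^ 2 ≤ sqd x p.1 p.2).card : ℝ) *
          ((2 : ℝ) ^ N / 10) := mul_le_mul_of_nonneg_right (by linarith) (by positivity)
      _ = ∑ p ∈ (univ.filter fun p : I × I => 4 * σ ^ 2 ≤ sqd x p.1 p.2), ((2 : ℝ) ^ N / 10) := by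
          rw [sum_const, nsmul_eq_mul]
      _ ≤ ∑ p ∈ (univ.filter fun p : I × I => 4 * σ ^ 2 ≤ sqd x p.1 p.2),
          ((univ.filter fun e : Fin N → Bool =>
            σ ≤ lin e (x p.2) - lin e (x p.1)).card : ℝ) := sum_le_sum h3
      _ ≤ _ := sum_le_sum_of_subset_of_nonneg (subset_univ _) fun p _ _ => by positivity
  choose M hM hMc using fun e => exists_matching (x := x) (Δ := Δ) (σ := σ)
    (by norm_num : (0 : ℝ) < 1 / 240) hno e
  have hcard : (2 : ℝ) ^ N * (n / 240) ≤ ∑ e, ((M e).card : ℝ) := by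
    have h1 := sum_le_sum fun e (_ : e ∈ (univ : Finset (Fin N → Bool))) => hMc e
    rw [sum_sub_distrib, ← sum_div, sum_const_cube] at h1
    have h2 : (2 : ℝ) ^ N * (n / 120) ≤ (∑ e, ((Pe x σ e).card : ℝ)) / (2 * n) := by
      rw [le_div_iff₀ (by positivity)]
      have : (2 : ℝ) ^ N * (n / 120) * (2 * n) = 2 ^ N * (n ^ 2 / 60) := by ring
      rw [this]; exact hmean
    linarith
  have hodd : ∑ e, ∑ i, |Y x s e i - Y x s (neg e) i| ≤ 2 ^ N * (n * (σ / 480)) := by
    rw [sum_comm]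
    calc ∑ i, ∑ e, |Y x s e i - Y x s (neg e) i| ≤ ∑ _i : I, 2 ^ N * (2 * (σ / 960)) :=
          sum_le_sum fun i _ => odd_part hs (by positivity) hs2 i
      _ = _ := by
          rw [sum_const, card_univ, nsmul_eq_mul]; ring
  have hsum := sum_le_sum fun e (_ : e ∈ (univ : Finset (Fin N → Bool))) =>
    full_step ht hs hΔ (hM e)
  rw [sum_sub_distrib, sum_add_distrib, sum_add_distrib, ← mul_sum, ← mul_sum,
    sum_neg_comp (fun e => ∑ i, Y x s e i), sum_add_distrib,
    sum_neg_comp (fun e => ∑ i, Y x (s + Δ) e i)] at hsum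
  have h6 : 2 * σ * ((2 : ℝ) ^ N * (n / 240)) ≤ 2 * σ * ∑ e, ((M e).card : ℝ) :=
    mul_le_mul_of_nonneg_left hcard (by positivity)
  have h7 : 2 * σ * ((2 : ℝ) ^ N * (n / 240)) = 4 * (2 ^ N * (n * (σ / 480))) := by ring
  linarith

end Vale.Agent.P318.H724
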