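import Vale.Agent.P318.H724.Cube

/-! The maximal increment of a random projection in a neighbourhood. -/

open Finset

set_option linter.unusedSectionVars false

namespace Vale.Agent.P318.H724

variable {I : Type*} [Fintype I] [DecidableEq I] {N : ℕ}

/-- squared distance -/
noncomputable def sqd (x : I → Fin N → ℝ) (i j : I) : ℝ := ∑ l, (x i l - x j l) ^ 2

lemma sqd_self (x : I → Fin N → ℝ) (i : I) : sqd x i i = 0 := by simp [sqd]

lemma sqd_comm (x : I → Fin N → ℝ) (i j : I) : sqd x i j = sqd x j i := by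
  unfold sqd
  apply sum_congr rfl
  intro l _
  ring

lemma sqd_nonneg (x : I → Fin N → ℝ) (i j : I) : 0 ≤ sqd x i j :=
  sum_nonneg fun _ _ => sq_nonneg _

/-- neighbourhood -/
noncomputable def nb (x : I → Fin N → ℝ) (s : ℝ) (i : I) : Finset I :=
  insert i (univ.filter fun j => sqd x i j ≤ s)

lemma self_mem_nb (x : I → Fin N → ℝ) (s : ℝ) (i : I) : i ∈ nb x s i := mem_insert_self _ _

/-- maximal increment -/
noncomputable def Y (x : I → Fin N → ℝ) (s : ℝ) (e : Fin N → Bool) (i : I) : ℝ :=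
  (nb x s i).sup' ⟨i, self_mem_nb x s i⟩ (fun j => lin e (x j) - lin e (x i))

lemma le_Y {x : I → Fin N → ℝ} {s : ℝ} (e : Fin N → Bool) {i j : I} (hj : j ∈ nb x s i) :
    lin e (x j) - lin e (x i) ≤ Y x s e i :=
  le_sup' (fun j => lin e (x j) - lin e (x i)) hj

lemma exists_Y (x : I → Fin N → ℝ) (s : ℝ) (e : Fin N → Bool) (i : I) :
    ∃ k ∈ nb x s i, Y x s e i = lin e (x k) - lin e (x i) :=
  exists_mem_eq_sup' ⟨i, self_mem_nb x s i⟩ (fun k => lin e (x k) - lin e (x i))

lemma mem_nb {x : I → Fin N → ℝ} {s : ℝ} (hs : 0 ≤ s) {i j : I} : j ∈ nb x s i ↔ sqd x i j ≤ s := by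
  unfold nb
  rw [mem_insert, mem_filter]
  constructor
  · rintro (rfl | h)
    · rw [sqd_self]; exact hs
    · exact h.2
  · intro h
    exact Or.inr ⟨mem_univ _, h⟩

lemma Y_nonneg (x : I → Fin N → ℝ) (s : ℝ) (e : Fin N → Bool) (i : I) : 0 ≤ Y x s e i := by
  have h := le_Y e (self_mem_nb x s i)
  linarith

lemma Y_step {x : I → Fin N → ℝ} (ht : ∀ i j k, sqd x i k ≤ sqd x i j + sqd x j k) {s Δ : ℝ}
    (hs : 0 ≤ s) (hΔ : 0 ≤ Δ) {e : Fin N → Bool} {i j : I} (hij : sqd x i j ≤ Δ) :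
    lin e (x j) - lin e (x i) + Y x s e j ≤ Y x (s + Δ) e i := by
  obtain ⟨k, hk, h1⟩ := exists_Y x s e j
  rw [h1]
  rw [mem_nb hs] at hk
  have h2 : k ∈ nb x (s + Δ) i := by
    rw [mem_nb (by linarith)]
    have := ht i j k
    linarith
  have h3 : lin e (x k) - lin e (x i) ≤ Y x (s + Δ) e i :=
    le_Y e h2
  linarith

lemma Y_mono {x : I → Fin N → ℝ} (ht : ∀ i j k, sqd x i k ≤ sqd x i j + sqd x j k) {s Δ : ℝ}
    (hs : 0 ≤ s) (hΔ : 0 ≤ Δ) {e : Fin N → Bool} {i : I} : Y x s e i ≤ Y x (s + Δ) e i := by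
  have := Y_step ht hs hΔ (e := e) (i := i) (j := i) (by rw [sqd_self]; exact hΔ)
  linarith

lemma lin_flip_sub {e : Fin N → Bool} (l : Fin N) (y : Fin N → ℝ) :
    lin e y - lin (flip l e) y = 2 * sg (e l) * y l := by
  unfold lin
  rw [← sum_sub_distrib, sum_eq_single l]
  · simp [flip, sg_not]; ring
  · intro m _ hm
    simp [flip, Function.update_of_ne hm]
  · simp

lemma sg_sq (b : Bool) : sg b ^ 2 = 1 := by cases b <;> simp [sg]

/-- the energy of the maximum -/
lemma energy {x : I → Fin N → ℝ} {s : ℝ} (hs : 0 ≤ s) (i : I) :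
    ∑ l, ∑ e, (Y x s e i - Y x s (flip l e) i) ^ 2 ≤ 2 ^ N * (8 * s) := by
  set g : Fin N → (Fin N → Bool) → ℝ := fun l e =>
    (max (Y x s e i - Y x s (flip l e) i) 0) ^ 2 with hg
  have h1 : ∀ l, ∑ e, (Y x s e i - Y x s (flip l e) i) ^ 2 = 2 * ∑ e, g l e := by
    intro l
    have h2 : ∀ e, (Y x s e i - Y x s (flip l e) i) ^ 2 = g l e + g l (flip l e) := by
      intro e
      simp only [hg, flip_flip]
      rcases le_total (Y x s e i - Y x s (flip l e) i) 0 with h | h
      · rw [max_eq_right h, max_eq_left (by linarith)]; ring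
      · rw [max_eq_left h, max_eq_right (by linarith)]; ring
    simp_rw [h2]
    rw [sum_add_distrib, sum_flip_comp l (fun e => g l e)]
    ring
  simp_rw [h1]
  rw [← mul_sum, sum_comm]
  have h3 : ∀ e, ∑ l, g l e ≤ 4 * s := by
    intro e
    obtain ⟨k, hk, h4⟩ := exists_Y x s e i
    have hk3 : sqd x i k ≤ s := (mem_nb hs).1 hk
    have h5 : ∀ l, g l e ≤ 4 * (x i l - x k l) ^ 2 := by
      intro l
      have h6 : lin (flip l e) (x k) - lin (flip l e) (x i) ≤ Y x s (flip l e) i :=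
        le_Y (flip l e) hk
      have h7 := lin_flip_sub (e := e) l (x k)
      have h8 := lin_flip_sub (e := e) l (x i)
      have h9 : Y x s e i - Y x s (flip l e) i ≤ 2 * sg (e l) * (x k l - x i l) := by
        rw [h4]; linarith
      have h10 : (2 * sg (e l) * (x k l - x i l)) ^ 2 = 4 * (x i l - x k l) ^ 2 := by
        have := sg_sq (e l)
        calc (2 * sg (e l) * (x k l - x i l)) ^ 2 = 4 * (sg (e l) ^ 2) * (x i l - x k l) ^ 2 := by
              ring
          _ = _ := by rw [this]; ring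
      rcases le_total (Y x s e i - Y x s (flip l e) i) 0 with h | h
      · simp only [hg]
        rw [max_eq_right h]
        have := sq_nonneg (x i l - x k l)
        linarith
      · simp only [hg]
        rw [max_eq_left h, ← h10]
        exact pow_le_pow_left₀ h h9 2
    calc ∑ l, g l e ≤ ∑ l, 4 * (x i l - x k l) ^ 2 := sum_le_sum fun l _ => h5 l
      _ = 4 * sqd x i k := by rw [← mul_sum]; rfl
      _ ≤ 4 * s := by linarith
  have h11 : ∑ e : Fin N → Bool, ∑ l, g l e ≤ 2 ^ N * (4 * s) := by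
    rw [← sum_const_cube]
    exact sum_le_sum fun e _ => h3 e
  linarith

/-- the odd part of the maximum is small in mean -/
lemma odd_part {x : I → Fin N → ℝ} {s t : ℝ} (hs : 0 ≤ s) (ht0 : 0 ≤ t) (ht : 2 * s ≤ t ^ 2)
    (i : I) : ∑ e, |Y x s e i - Y x s (neg e) i| ≤ 2 ^ N * (2 * t) := by
  set f : (Fin N → Bool) → ℝ := fun e => Y x s e i with hf
  have hN : (0 : ℝ) < 2 ^ N := by positivity
  have h1 := poincare f
  have h2 := energy (x := x) hs i
  have h3 : 2 ^ N * ∑ e, f e ^ 2 - (∑ e, f e) ^ 2 ≤ 2 ^ N * (2 ^ N * (2 * s)) := by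
    have : 2 ^ N * ∑ l, ∑ e, (f e - f (flip l e)) ^ 2 ≤ 2 ^ N * (2 ^ N * (8 * s)) :=
      mul_le_mul_of_nonneg_left h2 hN.le
    linarith
  set μ : ℝ := (∑ e, f e) / 2 ^ N with hμ
  have hμ' : ∑ e, f e = 2 ^ N * μ := by rw [hμ]; field_simp
  have h4 : ∑ e, (f e - μ) ^ 2 = ∑ e, f e ^ 2 - 2 ^ N * μ ^ 2 := by
    have : ∀ e, (f e - μ) ^ 2 = f e ^ 2 - 2 * μ * f e + μ ^ 2 := by intro e; ring
    simp_rw [this]
    rw [sum_add_distrib, sum_sub_distrib, ← mul_sum, sum_const_cube, hμ']
    ring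
  have h5 : (∑ e, |f e - μ|) ^ 2 ≤ (2 ^ N * t) ^ 2 := by
    have h6 : (∑ e : Fin N → Bool, |f e - μ|) ^ 2 ≤ 2 ^ N * ∑ e : Fin N → Bool, |f e - μ| ^ 2 := by
      have := sq_sum_le_card_mul_sum_sq (s := (univ : Finset (Fin N → Bool)))
        (f := fun e => |f e - μ|)
      simpa using this
    simp_rw [sq_abs] at h6
    rw [h4] at h6
    rw [hμ'] at h3
    have h7 : (2 : ℝ) ^ N * (2 ^ N * (2 * s)) ≤ 2 ^ N * (2 ^ N * t ^ 2) := by
      apply mul_le_mul_of_nonneg_left _ hN.le
      exact mul_le_mul_of_nonneg_left ht hN.le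
    calc _ ≤ _ := h6
      _ = 2 ^ N * ∑ e, f e ^ 2 - (2 ^ N * μ) ^ 2 := by ring
      _ ≤ _ := h3.trans h7
      _ = _ := by ring
  have h8 : ∑ e, |f e - μ| ≤ 2 ^ N * t :=
    (sq_le_sq₀ (sum_nonneg fun _ _ => abs_nonneg _) (by positivity)).1 h5
  calc ∑ e, |Y x s e i - Y x s (neg e) i| ≤ ∑ e, (|f e - μ| + |f (neg e) - μ|) := by
        apply sum_le_sum
        intro e _
        have h9 : Y x s e i - Y x s (neg e) i = (f e - μ) - (f (neg e) - μ) := by
          simp only [hf]; ring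
        rw [h9]
        exact abs_sub _ _
    _ = 2 * ∑ e, |f e - μ| := by
        rw [sum_add_distrib, sum_neg_comp (fun e => |f e - μ|)]; ring
    _ ≤ _ := by linarith

/-- the mean of the maximum over few distinct values -/
lemma mean_le {x : I → Fin N → ℝ} {s lam : ℝ} (hs : 0 ≤ s) (hlam : 0 < lam) (R : Finset I)
    (hR : ∀ i, ∃ j ∈ R, x j = x i) (i : I) :
    ∑ e, Y x s e i ≤ 2 ^ N * (Real.log R.card / lam + lam * s / 2) := by
  have hR0 : 0 < R.card := by
    obtain ⟨j, hj, -⟩ := hR i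
    exact card_pos.2 ⟨j, hj⟩
  have hK : (0 : ℝ) < R.card := by exact_mod_cast hR0
  set a : ℝ := Real.log R.card + lam ^ 2 * s / 2 with ha
  have hea : Real.exp a = R.card * Real.exp (lam ^ 2 * s / 2) := by
    rw [ha, Real.exp_add, Real.exp_log hK]
  have h1 : ∑ e, Real.exp (lam * Y x s e i) ≤ 2 ^ N * Real.exp a := by
    have h2 : ∀ e, Real.exp (lam * Y x s e i) ≤
        ∑ j ∈ R.filter (fun j => sqd x i j ≤ s), Real.exp (lin e (fun l => lam * (x j l - x i l))) := by
      intro e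
      obtain ⟨k, hk, h4⟩ := exists_Y x s e i
      have hk3 : sqd x i k ≤ s := (mem_nb hs).1 hk
      obtain ⟨j, hj, hjk⟩ := hR k
      have hmem : j ∈ R.filter (fun j => sqd x i j ≤ s) := by
        rw [mem_filter]
        refine ⟨hj, ?_⟩
        unfold sqd at hk3 ⊢
        rw [hjk]; exact hk3
      have h5 : lam * Y x s e i = lin e (fun l => lam * (x j l - x i l)) := by
        rw [h4, ← hjk]
        unfold lin
        rw [← sum_sub_distrib, mul_sum]
        apply sum_congr rfl
        intro l _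
        ring
      rw [h5]
      exact single_le_sum (f := fun j => Real.exp (lin e (fun l => lam * (x j l - x i l))))
        (fun _ _ => (Real.exp_pos _).le) hmem
    calc ∑ e, Real.exp (lam * Y x s e i)
        ≤ ∑ e, ∑ j ∈ R.filter (fun j => sqd x i j ≤ s),
          Real.exp (lin e (fun l => lam * (x j l - x i l))) := sum_le_sum fun e _ => h2 e
      _ = ∑ j ∈ R.filter (fun j => sqd x i j ≤ s), ∑ e,
          Real.exp (lin e (fun l => lam * (x j l - x i l))) := sum_comm
      _ ≤ ∑ j ∈ R.filter (fun j => sqd x i j ≤ s), 2 ^ N * Real.exp (lam ^ 2 * s / 2) := by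
          apply sum_le_sum
          intro j hj
          rw [mem_filter] at hj
          refine (exp_moment _).trans ?_
          apply mul_le_mul_of_nonneg_left _ (by positivity)
          apply Real.exp_le_exp.2
          have h6 : ∑ l, (lam * (x j l - x i l)) ^ 2 = lam ^ 2 * sqd x i j := by
            unfold sqd
            rw [mul_sum]
            apply sum_congr rfl
            intro l _
            ring
          rw [h6]
          have := mul_le_mul_of_nonneg_left hj.2 (sq_nonneg lam)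
          linarith
      _ = ((R.filter (fun j => sqd x i j ≤ s)).card : ℝ) * (2 ^ N * Real.exp (lam ^ 2 * s / 2)) := by
          rw [sum_const, nsmul_eq_mul]
      _ ≤ R.card * (2 ^ N * Real.exp (lam ^ 2 * s / 2)) := by
          apply mul_le_mul_of_nonneg_right _ (by positivity)
          exact_mod_cast card_filter_le _ _
      _ = _ := by rw [hea]; ring
  have h7 : ∀ e, lam * Y x s e i ≤ a - 1 + Real.exp (lam * Y x s e i) * Real.exp (-a) := by
    intro e
    rw [← Real.exp_add]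
    have := Real.add_one_le_exp (lam * Y x s e i + -a)
    linarith
  have h8 := sum_le_sum fun e (_ : e ∈ (univ : Finset (Fin N → Bool))) => h7 e
  rw [← mul_sum, sum_add_distrib, ← sum_mul, sum_const_cube] at h8
  have h9 : (∑ e, Real.exp (lam * Y x s e i)) * Real.exp (-a) ≤ 2 ^ N := by
    calc _ ≤ 2 ^ N * Real.exp a * Real.exp (-a) :=
          mul_le_mul_of_nonneg_right h1 (Real.exp_pos _).le
      _ = 2 ^ N := by rw [mul_assoc, ← Real.exp_add]; simp
  have h10 : lam * ∑ e, Y x s e i ≤ 2 ^ N * a := by linarith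
  have h11 : (2 : ℝ) ^ N * (Real.log R.card / lam + lam * s / 2) = (2 ^ N * a) / lam := by
    rw [ha]; field_simp
  rw [h11, le_div_iff₀ hlam]
  linarith

end Vale.Agent.P318.H724
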