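import Vale.Agent.P318.H724.Count

/-! Random Fréchet coordinates: the contribution of one pair of points. -/

open Finset

namespace Vale.Agent.P318.H724

variable {V : Type*} [Fintype V] [DecidableEq V]

/-- closed balls -/
noncomputable def ball (d : V → V → ℝ) (x : V) (s : ℝ) : Finset V := univ.filter fun z => d x z ≤ s

lemma mem_ball {d : V → V → ℝ} {x z : V} {s : ℝ} : z ∈ ball d x s ↔ d x z ≤ s := by simp [ball]

/-- the distance to the points of a tuple -/
noncomputable def fr (d : V → V → ℝ) {q : ℕ} (a : Fin (q + 1) → V) (z : V) : ℝ :=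
  univ.inf' ⟨0, mem_univ _⟩ (fun i => d z (a i))

lemma fr_sub_le {d : V → V → ℝ} (ht : ∀ x y z, d x z ≤ d x y + d y z) {q : ℕ}
    (a : Fin (q + 1) → V) (x y : V) : fr d a x - fr d a y ≤ d x y := by
  obtain ⟨i, -, hi⟩ := exists_mem_eq_inf' (⟨0, mem_univ _⟩ : (univ : Finset (Fin (q+1))).Nonempty)
    (fun i => d y (a i))
  have h1 : fr d a x ≤ d x (a i) := inf'_le _ (mem_univ i)
  have h2 : fr d a y = d y (a i) := hi
  have := ht x y (a i)
  linarith

lemma fr_lip {d : V → V → ℝ} (hs : ∀ x y, d x y = d y x) (ht : ∀ x y z, d x z ≤ d x y + d y z)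
    {q : ℕ} (a : Fin (q + 1) → V) (x y : V) : |fr d a x - fr d a y| ≤ d x y := by
  rw [abs_le]
  have h1 := fr_sub_le ht a x y
  have h2 := fr_sub_le ht a y x
  rw [hs y x] at h2
  constructor <;> linarith

lemma fr_gap {d : V → V → ℝ} {q : ℕ} (a : Fin (q + 1) → V) {x y : V} {s s' : ℝ}
    (hx : ∀ i, a i ∉ ball d x s') (hy : ∃ i, a i ∈ ball d y s) :
    s' - s ≤ |fr d a x - fr d a y| := by
  have h1 : s' ≤ fr d a x := by
    apply le_inf'
    intro i _
    have := hx i
    rw [mem_ball, not_le] at this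
    exact this.le
  obtain ⟨i, hi⟩ := hy
  have h2 : fr d a y ≤ s := (inf'_le _ (mem_univ i)).trans (mem_ball.1 hi)
  exact le_trans (by linarith) (le_abs_self _)

/-- the number of indices below `J` where `φ` is below `M` -/
def cnt (φ : ℕ → ℕ) (J M : ℕ) : ℕ := ((range J).filter fun j => φ j < M).card

lemma lt_cnt {φ : ℕ → ℕ} (hφ : Monotone φ) {J M j : ℕ} (hj : j < J) :
    φ j < M ↔ j < cnt φ J M := by
  constructor
  · intro h
    have hsub : range (j + 1) ⊆ (range J).filter fun j => φ j < M := by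
      intro i hi
      rw [mem_range] at hi
      rw [mem_filter, mem_range]
      exact ⟨by omega, lt_of_le_of_lt (hφ (by omega)) h⟩
    have := card_le_card hsub
    rw [card_range] at this
    exact this
  · intro h
    by_contra hcon
    have hsub : ((range J).filter fun j => φ j < M) ⊆ range j := by
      intro i hi
      rw [mem_filter, mem_range] at hi
      rw [mem_range]
      by_contra h2
      exact hcon (lt_of_le_of_lt (hφ (by omega)) hi.2)
    have := card_le_card hsub
    rw [card_range] at this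
    unfold cnt at h
    omega

lemma cnt_le {φ : ℕ → ℕ} {J M : ℕ} : cnt φ J M ≤ J := by
  have := card_filter_le (range J) (fun j => φ j < M)
  rw [card_range] at this
  exact this

/-- one level, one order of the two points -/
lemma level_aux {d : V → V → ℝ} (hs : ∀ x y, d x y = d y x)
    (ht : ∀ x y z, d x z ≤ d x y + d y z) {x y : V} {s s' : ℝ} (hxy : s + s' < d x y) {M : ℕ}
    (hM : 1 ≤ M) (hX : (ball d x s').card ≤ 2 * M) (hY : M ≤ (ball d y s).card)
    (hss : s ≤ s') :
    (s' - s) * (Fintype.card V : ℝ) ^ (Fintype.card V / (6 * M) + 1) ≤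
      12 * ∑ a : Fin (Fintype.card V / (6 * M) + 1) → V, |fr d a x - fr d a y| := by
  have hdis : Disjoint (ball d x s') (ball d y s) := by
    rw [disjoint_left]
    intro z hz hz'
    rw [mem_ball] at hz hz'
    have := ht x z y
    rw [hs z y] at this
    linarith
  have h1 := count hdis hM hX hY
  set k := Fintype.card V / (6 * M) + 1 with hk
  set G := (univ.filter (fun a : Fin k → V =>
        (∀ i, a i ∉ ball d x s') ∧ ∃ i, a i ∈ ball d y s)) with hG
  have h2 : (G.card : ℝ) * (s' - s) ≤ ∑ a : Fin k → V, |fr d a x - fr d a y| := by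
    calc (G.card : ℝ) * (s' - s) = ∑ a ∈ G, (s' - s) := by rw [sum_const, nsmul_eq_mul]
      _ ≤ ∑ a ∈ G, |fr d a x - fr d a y| := by
        apply sum_le_sum
        intro a ha
        rw [hG, mem_filter] at ha
        exact fr_gap a ha.2.1 ha.2.2
      _ ≤ _ := sum_le_sum_of_subset_of_nonneg (subset_univ _) fun _ _ _ => abs_nonneg _
  have h3 : (s' - s) * (Fintype.card V : ℝ) ^ k ≤ (s' - s) * (12 * (G.card : ℝ)) :=
    mul_le_mul_of_nonneg_left h1 (by linarith)
  linarith

/-- one level -/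
lemma level {d : V → V → ℝ} (hs : ∀ x y, d x y = d y x)
    (ht : ∀ x y z, d x z ≤ d x y + d y z) {x y : V} {r h : ℝ} (hh : 0 ≤ h) {J : ℕ}
    (hxy : 2 * (r + J * h) < d x y) {M : ℕ} (hM : 1 ≤ M) :
    ((cnt (fun j => min (ball d x (r + j * h)).card (ball d y (r + j * h)).card) J (2 * M) : ℝ) -
      cnt (fun j => min (ball d x (r + j * h)).card (ball d y (r + j * h)).card) J M - 1) * h *
        (Fintype.card V : ℝ) ^ (Fintype.card V / (6 * M) + 1) ≤
      12 * ∑ a : Fin (Fintype.card V / (6 * M) + 1) → V, |fr d a x - fr d a y| := by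
  set φ : ℕ → ℕ := fun j => min (ball d x (r + j * h)).card (ball d y (r + j * h)).card with hφdef
  have hmono : Monotone φ := by
    intro i j hij
    have h1 : (r + i * h) ≤ r + j * h := by
      have : (i : ℝ) ≤ j := by exact_mod_cast hij
      nlinarith
    have h2 : ∀ z : V, (ball d z (r + i * h)).card ≤ (ball d z (r + j * h)).card := by
      intro z
      apply card_le_card
      intro w hw
      rw [mem_ball] at hw ⊢
      exact hw.trans h1
    exact min_le_min (h2 x) (h2 y)
  set A0 := cnt φ J M with hA0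
  set A1 := cnt φ J (2 * M) with hA1
  have hRHS : 0 ≤ 12 * ∑ a : Fin (Fintype.card V / (6 * M) + 1) → V, |fr d a x - fr d a y| := by
    have : 0 ≤ ∑ a : Fin (Fintype.card V / (6 * M) + 1) → V, |fr d a x - fr d a y| :=
      sum_nonneg fun _ _ => abs_nonneg _
    linarith
  by_cases hA : A1 ≤ A0 + 1
  · refine le_trans ?_ hRHS
    have h1 : (A1 : ℝ) ≤ A0 + 1 := by exact_mod_cast hA
    have h2 : ((A1 : ℝ) - A0 - 1) ≤ 0 := by linarith
    have h3 : 0 ≤ h * (Fintype.card V : ℝ) ^ (Fintype.card V / (6 * M) + 1) := by positivity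
    have h4 := mul_nonpos_of_nonpos_of_nonneg h2 h3
    linarith
  · push Not at hA
    have hA1J : A1 ≤ J := cnt_le
    have hj : M ≤ φ A0 := by
      by_contra hcon
      push Not at hcon
      have := (lt_cnt hmono (by omega : A0 < J)).1 hcon
      omega
    have hj' : φ (A1 - 1) < 2 * M := (lt_cnt hmono (by omega : A1 - 1 < J)).2 (by omega)
    have hcast : (((A1 - 1 : ℕ) : ℝ)) = A1 - 1 := by
      rw [Nat.cast_sub (by omega)]; simp
    have e1 : ((A1 : ℝ) - A0 - 1) * h = (r + ((A1 - 1 : ℕ) : ℝ) * h) - (r + (A0 : ℝ) * h) := by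
      rw [hcast]; ring
    rw [e1]
    have hA0r : (A0 : ℝ) ≤ ((A1 - 1 : ℕ) : ℝ) := by exact_mod_cast (by omega : A0 ≤ A1 - 1)
    have hA1r : ((A1 - 1 : ℕ) : ℝ) ≤ J := by exact_mod_cast (by omega : A1 - 1 ≤ J)
    have hss : r + (A0 : ℝ) * h ≤ r + ((A1 - 1 : ℕ) : ℝ) * h := by nlinarith
    have hsum : (r + (A0 : ℝ) * h) + (r + ((A1 - 1 : ℕ) : ℝ) * h) < d x y := by nlinarith
    have hjx : M ≤ (ball d x (r + A0 * h)).card := hj.trans (min_le_left _ _)
    have hjy : M ≤ (ball d y (r + A0 * h)).card := hj.trans (min_le_right _ _)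
    rcases min_lt_iff.1 hj' with hlt | hlt
    · exact level_aux hs ht hsum hM hlt.le hjy hss
    · have h5 := level_aux hs ht (x := y) (y := x) (by rw [hs y x]; exact hsum) hM hlt.le hjx hss
      refine h5.trans (le_of_eq ?_)
      congr 1
      apply sum_congr rfl
      intro a _
      exact abs_sub_comm _ _

/-- all levels -/
theorem pair {d : V → V → ℝ} (hs : ∀ x y, d x y = d y x)
    (ht : ∀ x y z, d x z ≤ d x y + d y z) {x y : V} {r h : ℝ} (hh : 0 ≤ h) {J : ℕ}
    (hxy : 2 * (r + J * h) < d x y) {m L : ℕ} (hm : 1 ≤ m) (hL : Fintype.card V < m * 2 ^ L)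
    (hx : m ≤ (ball d x r).card) (hy : m ≤ (ball d y r).card) :
    ((J : ℝ) - L) * h ≤ 12 * ∑ t ∈ range L,
      (∑ a : Fin (Fintype.card V / (6 * (m * 2 ^ t)) + 1) → V, |fr d a x - fr d a y|) /
        (Fintype.card V : ℝ) ^ (Fintype.card V / (6 * (m * 2 ^ t)) + 1) := by
  have hn0 : 0 < Fintype.card V := Fintype.card_pos_iff.2 ⟨x⟩
  have hn : (0 : ℝ) < Fintype.card V := by exact_mod_cast hn0
  set φ : ℕ → ℕ := fun j => min (ball d x (r + j * h)).card (ball d y (r + j * h)).card with hφdef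
  have hstep : ∀ t, ((cnt φ J (m * 2 ^ (t + 1)) : ℝ) - cnt φ J (m * 2 ^ t) - 1) * h ≤
      12 * ((∑ a : Fin (Fintype.card V / (6 * (m * 2 ^ t)) + 1) → V, |fr d a x - fr d a y|) /
        (Fintype.card V : ℝ) ^ (Fintype.card V / (6 * (m * 2 ^ t)) + 1)) := by
    intro t
    have hM : 1 ≤ m * 2 ^ t := Nat.one_le_iff_ne_zero.2 (by positivity)
    have h1 := level hs ht (r := r) hh hxy hM
    rw [← mul_div_assoc, le_div_iff₀ (by positivity)]
    have h2 : 2 * (m * 2 ^ t) = m * 2 ^ (t + 1) := by ring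
    rw [h2] at h1
    exact h1
  have hsum := sum_le_sum fun t (_ : t ∈ range L) => hstep t
  rw [← mul_sum, ← sum_mul] at hsum
  have htel : ∑ t ∈ range L, ((cnt φ J (m * 2 ^ (t + 1)) : ℝ) - cnt φ J (m * 2 ^ t) - 1) =
      (cnt φ J (m * 2 ^ L) : ℝ) - cnt φ J (m * 2 ^ 0) - L := by
    rw [sum_sub_distrib, sum_range_sub (fun t => (cnt φ J (m * 2 ^ t) : ℝ))]
    simp
  have h0 : cnt φ J (m * 2 ^ 0) = 0 := by
    unfold cnt
    rw [card_eq_zero, filter_eq_empty_iff]
    intro j _
    rw [pow_zero, mul_one, not_lt]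
    have hj : r ≤ r + j * h := by
      have : 0 ≤ (j : ℝ) * h := by positivity
      linarith
    have h2 : ∀ z : V, (ball d z r).card ≤ (ball d z (r + j * h)).card := by
      intro z
      apply card_le_card
      intro w hw
      rw [mem_ball] at hw ⊢
      exact hw.trans hj
    exact le_min (hx.trans (h2 x)) (hy.trans (h2 y))
  have h1 : cnt φ J (m * 2 ^ L) = J := by
    unfold cnt
    rw [filter_true_of_mem, card_range]
    intro j _
    refine lt_of_le_of_lt (min_le_left _ _) (lt_of_le_of_lt (card_le_univ _) hL)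
  rw [htel, h0, h1] at hsum
  simpa using hsum

end Vale.Agent.P318.H724
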