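import Vale.Agent.P318.H724.WalkDef
import Vale.Agent.P318.H724.ArvMain

/-! The gap for capacities whose lazy random walk is spread after a few steps. -/

open Finset

set_option linter.unusedSectionVars false

namespace Vale.Agent.P318.H724

open Vale.Agent.P318.H867

variable {V : Type*} [Fintype V] [DecidableEq V] {c d : V → V → ℝ} {D : ℝ}

/-- symmetric stochastic matrices -/
structure Sto (A : Matrix V V ℝ) : Prop where
  nn : ∀ i j, 0 ≤ A i j
  sy : ∀ i j, A i j = A j i
  row : ∀ i, ∑ j, A i j = 1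

lemma Sto.col {A : Matrix V V ℝ} (h : Sto A) (j : V) : ∑ i, A i j = 1 := by
  rw [← h.row j]
  exact sum_congr rfl fun i _ => h.sy i j

lemma Sto.one : Sto (1 : Matrix V V ℝ) where
  nn i j := by rw [Matrix.one_apply]; split_ifs <;> norm_num
  sy i j := by
    rw [Matrix.one_apply, Matrix.one_apply]
    by_cases h : i = j
    · rw [if_pos h, if_pos h.symm]
    · rw [if_neg h, if_neg (fun h' => h h'.symm)]
  row i := by simp [Matrix.one_apply]

lemma Sto.pow {A : Matrix V V ℝ} (h : Sto A) (t : ℕ) : Sto (A ^ t) := by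
  induction t with
  | zero => rw [pow_zero]; exact Sto.one
  | succ t ih =>
    refine ⟨?_, ?_, ?_⟩
    · intro i j
      rw [pow_succ, Matrix.mul_apply]
      exact sum_nonneg fun k _ => mul_nonneg (ih.nn i k) (h.nn k j)
    · intro i j
      have h1 : (A ^ (t + 1)) i j = ∑ k, (A ^ t) i k * A k j := by rw [pow_succ, Matrix.mul_apply]
      have h2 : (A ^ (t + 1)) j i = ∑ k, A j k * (A ^ t) k i := by rw [pow_succ', Matrix.mul_apply]
      rw [h1, h2]
      apply sum_congr rfl
      intro k _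
      rw [ih.sy i k, h.sy k j]; ring
    · intro i
      have h1 : ∀ j, (A ^ (t + 1)) i j = ∑ k, (A ^ t) i k * A k j := fun j => by
        rw [pow_succ, Matrix.mul_apply]
      simp_rw [h1]
      rw [sum_comm]
      simp_rw [← mul_sum, h.row, mul_one]
      exact ih.row i

/-- contraction -/
lemma Sto.contract {A : Matrix V V ℝ} (h : Sto A) (g : V → ℝ) :
    ∑ i, (∑ j, A i j * g j) ^ 2 ≤ ∑ i, g i ^ 2 := by
  have h1 : ∀ i, (∑ j, A i j * g j) ^ 2 ≤ ∑ j, A i j * g j ^ 2 := by
    intro i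
    have h2 := sum_sq_le_sum_mul_sum_of_sq_le_mul univ (r := fun j => A i j * g j)
      (f := fun j => A i j) (g := fun j => A i j * g j ^ 2) (fun j _ => h.nn i j)
      (fun j _ => mul_nonneg (h.nn i j) (sq_nonneg _)) (fun j _ => le_of_eq (by ring))
    rw [h.row, one_mul] at h2
    exact h2
  calc ∑ i, (∑ j, A i j * g j) ^ 2 ≤ ∑ i, ∑ j, A i j * g j ^ 2 := sum_le_sum fun i _ => h1 i
    _ = ∑ j, ∑ i, A i j * g j ^ 2 := sum_comm
    _ = ∑ j, g j ^ 2 := by
      apply sum_congr rfl
      intro j _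
      rw [← sum_mul, h.col, one_mul]

/-- the quadratic form -/
def qf (A : Matrix V V ℝ) (g : V → ℝ) : ℝ := ∑ i, ∑ j, g i * (A i j * g j)

/-- the quadratic form of an even power -/
lemma qf_even {A : Matrix V V ℝ} (h : Sto A) (s : ℕ) (g : V → ℝ) :
    qf (A ^ (2 * s)) g = ∑ k, (∑ j, (A ^ s) k j * g j) ^ 2 := by
  unfold qf
  have h1 : ∀ i j, (A ^ (2 * s)) i j = ∑ k, (A ^ s) k i * (A ^ s) k j := by
    intro i j
    rw [two_mul, pow_add, Matrix.mul_apply]
    apply sum_congr rfl
    intro k _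
    rw [(h.pow s).sy i k]
  simp_rw [h1]
  calc ∑ i, ∑ j, g i * ((∑ k, (A ^ s) k i * (A ^ s) k j) * g j)
      = ∑ i, ∑ j, ∑ k, ((A ^ s) k i * g i) * ((A ^ s) k j * g j) := by
        apply sum_congr rfl; intro i _; apply sum_congr rfl; intro j _
        rw [sum_mul, mul_sum]
        apply sum_congr rfl; intro k _
        ring
    _ = ∑ k, ∑ i, ∑ j, ((A ^ s) k i * g i) * ((A ^ s) k j * g j) := by
        have : ∀ i, ∑ j, ∑ k, ((A ^ s) k i * g i) * ((A ^ s) k j * g j) =
            ∑ k, ∑ j, ((A ^ s) k i * g i) * ((A ^ s) k j * g j) := fun i => sum_comm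
        simp_rw [this]
        exact sum_comm
    _ = _ := by
        apply sum_congr rfl; intro k _
        rw [sq, sum_mul_sum]

/-- `‖A ^ s g‖` decreases -/
lemma norm_pow_le {A : Matrix V V ℝ} (h : Sto A) (g : V → ℝ) (s : ℕ) :
    ∑ k, (∑ j, (A ^ (s + 1)) k j * g j) ^ 2 ≤ ∑ k, (∑ j, A k j * g j) ^ 2 := by
  induction s with
  | zero => simp
  | succ s ih =>
    refine le_trans ?_ ih
    have h1 : ∀ k, ∑ j, (A ^ (s + 1 + 1)) k j * g j =
        ∑ l, A k l * ∑ j, (A ^ (s + 1)) l j * g j := by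
      intro k
      have h2 : ∀ j, (A ^ (s + 1 + 1)) k j = ∑ l, A k l * (A ^ (s + 1)) l j := fun j => by
        rw [pow_succ' A (s + 1), Matrix.mul_apply]
      simp_rw [h2, sum_mul, mul_sum]
      rw [sum_comm]
      apply sum_congr rfl; intro l _; apply sum_congr rfl; intro j _
      ring
    simp_rw [h1]
    exact h.contract _

/-- lazy matrices: the square is dominated by the matrix -/
lemma sq_le_self {A P : Matrix V V ℝ} (hP : Sto P)
    (hA : ∀ i j, A i j = ((if i = j then 1 else 0) + P i j) / 2) (g : V → ℝ) :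
    ∑ k, (∑ j, A k j * g j) ^ 2 ≤ qf A g := by
  have h1 : ∀ k, ∑ j, A k j * g j = (g k + ∑ j, P k j * g j) / 2 := by
    intro k
    simp_rw [hA, add_div, add_mul]
    rw [sum_add_distrib]
    have h2 : ∑ j, (if k = j then (1 : ℝ) else 0) / 2 * g j = g k / 2 := by
      rw [sum_eq_single k]
      · simp; ring
      · intro j _ hj
        rw [if_neg (fun h => hj h.symm)]; simp
      · simp
    rw [h2, sum_div]
    congr 1
    apply sum_congr rfl; intro j _; ring
  have h3 : qf A g = ∑ k, g k * ∑ j, A k j * g j := by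
    unfold qf
    apply sum_congr rfl; intro k _
    rw [mul_sum]
  rw [h3]
  simp_rw [h1]
  have h4 := hP.contract g
  have h5 : ∑ k, g k * ((g k + ∑ j, P k j * g j) / 2) -
      ∑ k, ((g k + ∑ j, P k j * g j) / 2) ^ 2 =
      (∑ k, g k ^ 2 - ∑ k, (∑ j, P k j * g j) ^ 2) / 4 := by
    rw [← sum_sub_distrib, ← sum_sub_distrib, sum_div]
    apply sum_congr rfl; intro k _
    ring
  linarith

/-- cuts of a stochastic matrix -/
lemma cut_eq {A : Matrix V V ℝ} (h : Sto A) (S : Finset V) :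
    cutCap (fun i j => A i j) S = S.card - qf A (fun i => if i ∈ S then 1 else 0) := by
  have h1 : qf A (fun i => if i ∈ S then 1 else 0) = ∑ i ∈ S, ∑ j ∈ S, A i j := by
    unfold qf
    rw [← sum_filter_add_sum_filter_not univ (· ∈ S)]
    have h2 : ∑ x with x ∉ S, ∑ j, (if x ∈ S then (1 : ℝ) else 0) *
        (A x j * (if j ∈ S then 1 else 0)) = 0 := by
      apply sum_eq_zero
      intro x hx
      simp only [mem_filter, mem_univ, true_and] at hx
      simp [hx]
    rw [h2, add_zero]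
    simp only [filter_mem_eq_inter, univ_inter]
    apply sum_congr rfl
    intro i hi
    simp only [hi, if_true, one_mul, mul_ite, mul_one, mul_zero]
    rw [← sum_filter]
    simp
  rw [h1]
  unfold cutCap
  have h3 : ∀ i ∈ S, ∑ j ∈ Sᶜ, A i j = 1 - ∑ j ∈ S, A i j := by
    intro i _
    have := sum_add_sum_compl S (fun j => A i j)
    rw [h.row] at this
    linarith
  rw [sum_congr rfl h3, sum_sub_distrib]
  simp

/-- transport along several steps -/
lemma transport {A : Matrix V V ℝ} (h : Sto A) (hd0 : ∀ x, d x x = 0)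
    (ht : ∀ x y z, d x z ≤ d x y + d y z) (t : ℕ) :
    ∑ i, ∑ j, (A ^ t) i j * d i j ≤ t * ∑ i, ∑ j, A i j * d i j := by
  induction t with
  | zero =>
    simp [Matrix.one_apply, hd0]
  | succ t ih =>
    have h1 : ∀ i j, (A ^ (t + 1)) i j * d i j ≤
        ∑ k, (A ^ t) i k * A k j * (d i k + d k j) := by
      intro i j
      rw [pow_succ, Matrix.mul_apply, sum_mul]
      apply sum_le_sum
      intro k _
      exact mul_le_mul_of_nonneg_left (ht i k j) (mul_nonneg ((h.pow t).nn i k) (h.nn k j))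
    have h2 : ∑ i, ∑ j, ∑ k, (A ^ t) i k * A k j * (d i k + d k j) =
        ∑ i, ∑ j, (A ^ t) i j * d i j + ∑ i, ∑ j, A i j * d i j := by
      have e1 : ∑ i, ∑ j, ∑ k, (A ^ t) i k * A k j * (d i k + d k j) =
          ∑ i, ∑ j, ∑ k, ((A ^ t) i k * d i k) * A k j +
          ∑ i, ∑ j, ∑ k, (A ^ t) i k * (A k j * d k j) := by
        rw [← sum_add_distrib]
        apply sum_congr rfl; intro i _
        rw [← sum_add_distrib]
        apply sum_congr rfl; intro j _
        rw [← sum_add_distrib]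
        apply sum_congr rfl; intro k _
        ring
      have e2 : ∑ i, ∑ j, ∑ k, ((A ^ t) i k * d i k) * A k j =
          ∑ i, ∑ j, (A ^ t) i j * d i j := by
        apply sum_congr rfl; intro i _
        rw [sum_comm]
        apply sum_congr rfl; intro k _
        rw [← mul_sum, h.row, mul_one]
      have e3 : ∑ i, ∑ j, ∑ k, (A ^ t) i k * (A k j * d k j) = ∑ i, ∑ j, A i j * d i j := by
        have : ∀ i, ∑ j, ∑ k, (A ^ t) i k * (A k j * d k j) =
            ∑ k, ∑ j, (A ^ t) i k * (A k j * d k j) := fun i => sum_comm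
        simp_rw [this]
        rw [sum_comm]
        apply sum_congr rfl; intro k _
        rw [sum_comm]
        apply sum_congr rfl; intro j _
        rw [← sum_mul, (h.pow t).col, one_mul]
      rw [e1, e2, e3]
    calc ∑ i, ∑ j, (A ^ (t + 1)) i j * d i j
        ≤ ∑ i, ∑ j, ∑ k, (A ^ t) i k * A k j * (d i k + d k j) :=
          sum_le_sum fun i _ => sum_le_sum fun j _ => h1 i j
      _ = _ := h2
      _ ≤ _ := by push_cast; linarith

section Lazy

lemma lazy_sto (hc : ∀ i j, 0 ≤ c i j) (hsym : ∀ i j, c i j = c j i) (hdiag : ∀ i, c i i = 0)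
    (hD : 0 < D) (hdeg : ∀ i, ∑ j, c i j ≤ D) : Sto (lazyWalk c D) := by
  refine ⟨?_, ?_, ?_⟩
  · intro i j
    unfold lazyWalk
    split_ifs with h
    · have : (∑ k, c i k) / (2 * D) ≤ 1 := by
        rw [div_le_one (by positivity)]
        linarith [hdeg i]
      linarith
    · exact div_nonneg (hc i j) (by positivity)
  · intro i j
    unfold lazyWalk
    by_cases h : i = j
    · subst h; rfl
    · rw [if_neg h, if_neg (fun h' => h h'.symm), hsym]
  · intro i
    have h1 : ∀ j, lazyWalk c D i j =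
        (if i = j then 1 - (∑ k, c i k) / (2 * D) else 0) + c i j / (2 * D) := by
      intro j
      unfold lazyWalk
      by_cases h : i = j
      · subst h; simp [hdiag]
      · simp [h]
    simp_rw [h1]
    rw [sum_add_distrib, ← sum_div]
    simp

lemma lazy_half (hc : ∀ i j, 0 ≤ c i j) (hsym : ∀ i j, c i j = c j i) (hdiag : ∀ i, c i i = 0)
    (hD : 0 < D) (hdeg : ∀ i, ∑ j, c i j ≤ D) :
    ∃ P : Matrix V V ℝ, Sto P ∧
      ∀ i j, lazyWalk c D i j = ((if i = j then 1 else 0) + P i j) / 2 := by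
  refine ⟨fun i j => 2 * lazyWalk c D i j - (if i = j then 1 else 0), ⟨?_, ?_, ?_⟩, ?_⟩
  · intro i j
    unfold lazyWalk
    split_ifs with h
    · have : 2 * ((∑ k, c i k) / (2 * D)) ≤ 1 := by
        have h2 : 2 * ((∑ k, c i k) / (2 * D)) = (∑ k, c i k) / D := by field_simp
        rw [h2, div_le_one hD]
        exact hdeg i
      linarith
    · have := div_nonneg (hc i j) (by positivity : (0 : ℝ) ≤ 2 * D)
      linarith
  · intro i j
    have h1 := (lazy_sto hc hsym hdiag hD hdeg).sy i j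
    by_cases h : i = j
    · subst h; rfl
    · rw [if_neg h, if_neg (fun h' => h h'.symm), h1]
  · intro i
    rw [sum_sub_distrib, ← mul_sum, (lazy_sto hc hsym hdiag hD hdeg).row]
    simp
    norm_num
  · intro i j
    simp

lemma lazy_cut (hc : ∀ i j, 0 ≤ c i j) (hsym : ∀ i j, c i j = c j i) (hdiag : ∀ i, c i i = 0)
    (hD : 0 < D) (hdeg : ∀ i, ∑ j, c i j ≤ D) (s : ℕ) (S : Finset V) :
    cutCap c S / (2 * D) ≤ cutCap (fun i j => (lazyWalk c D ^ (2 * (s + 1))) i j) S := by
  have hW := lazy_sto hc hsym hdiag hD hdeg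
  obtain ⟨P, hP, hA⟩ := lazy_half hc hsym hdiag hD hdeg
  have h1 : cutCap c S / (2 * D) = cutCap (fun i j => lazyWalk c D i j) S := by
    unfold cutCap
    rw [sum_div]
    apply sum_congr rfl; intro i hi
    rw [sum_div]
    apply sum_congr rfl; intro j hj
    rw [mem_compl] at hj
    have : i ≠ j := fun h => hj (h ▸ hi)
    simp only [lazyWalk, if_neg this]
  rw [h1, cut_eq hW, cut_eq (hW.pow _), qf_even hW]
  have h2 := norm_pow_le hW (fun i => if i ∈ S then (1 : ℝ) else 0) s
  have h3 := sq_le_self hP hA (fun i => if i ∈ S then (1 : ℝ) else 0)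
  linarith

lemma lazy_energy (hd0 : ∀ x, d x x = 0) :
    ∑ i, ∑ j, lazyWalk c D i j * d i j = (∑ i, ∑ j, c i j * d i j) / (2 * D) := by
  rw [sum_div]
  apply sum_congr rfl; intro i _
  rw [sum_div]
  apply sum_congr rfl; intro j _
  unfold lazyWalk
  by_cases h : i = j
  · subst h; simp [hd0]
  · rw [if_neg h]; ring

variable [Nontrivial V]

/-- from the walk to the capacities -/
lemma walk_to_c (hc : ∀ i j, 0 ≤ c i j) (hsym : ∀ i j, c i j = c j i) (hdiag : ∀ i, c i i = 0)
    (hD : 0 < D) (hdeg : ∀ i, ∑ j, c i j ≤ D) (s : ℕ) (hd : ∀ x y, 0 ≤ d x y)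
    (hd0 : ∀ x, d x x = 0) (ht : ∀ x y z, d x z ≤ d x y + d y z) {B : ℝ} (hB : 0 ≤ B)
    (h : phi (fun i j => (lazyWalk c D ^ (2 * (s + 1))) i j) * ∑ i, ∑ j, d i j ≤
      B * ∑ i, ∑ j, (lazyWalk c D ^ (2 * (s + 1))) i j * d i j) :
    phi c * ∑ i, ∑ j, d i j ≤ 2 * (s + 1) * B * ∑ i, ∑ j, c i j * d i j := by
  have hW := lazy_sto hc hsym hdiag hD hdeg
  have h1 : phi c / (2 * D) ≤ phi (fun i j => (lazyWalk c D ^ (2 * (s + 1))) i j) := by
    apply le_phi
    intro S _ _
    refine le_trans ?_ (lazy_cut hc hsym hdiag hD hdeg s S)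
    rw [div_mul_eq_mul_div]
    exact div_le_div_of_nonneg_right (phi_mul_le hc S) (by positivity)
  have hS0 : 0 ≤ ∑ i, ∑ j, d i j := sum_nonneg fun x _ => sum_nonneg fun y _ => hd x y
  have h2 := mul_le_mul_of_nonneg_right h1 hS0
  have h3 := mul_le_mul_of_nonneg_left (transport hW hd0 ht (2 * (s + 1))) hB
  rw [lazy_energy hd0] at h3
  have h4 := h2.trans (h.trans h3)
  have h5 : phi c / (2 * D) * ∑ i, ∑ j, d i j = (phi c * ∑ i, ∑ j, d i j) / (2 * D) := by ring
  have h6 : B * (((2 * (s + 1) : ℕ) : ℝ) * ((∑ i, ∑ j, c i j * d i j) / (2 * D))) =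
      (2 * (s + 1) * B * ∑ i, ∑ j, c i j * d i j) / (2 * D) := by push_cast; ring
  rw [h5, h6] at h4
  exact (div_le_div_iff_of_pos_right (by positivity)).1 h4

end Lazy

end Vale.Agent.P318.H724
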