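import Mathlib

/-! The lazy random walk of a capacity function. -/

open Finset

namespace Vale.Agent.P318.H724

variable {V : Type*} [Fintype V] [DecidableEq V]

/-- `W = 1 - L / (2 D)`, `L` the Laplacian of the capacities `c`: the walk stays at `i` with
probability `1 - deg i / (2 D)` and moves to `j ≠ i` with probability `c i j / (2 D)`. -/
noncomputable def lazyWalk (c : V → V → ℝ) (D : ℝ) : Matrix V V ℝ :=
  fun i j => if i = j then 1 - (∑ k, c i k) / (2 * D) else c i j / (2 * D)

end Vale.Agent.P318.H724
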