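import Vale.Agent.P318.H724.Walk

/-! The main theorem for lazy random walks. -/

open Finset

namespace Vale.Agent.P318.H724

open Vale.Agent.P318.H867

variable {V : Type*} [Fintype V] [DecidableEq V] [Nontrivial V] {c d : V → V → ℝ} {D : ℝ}

theorem walk_gl (hc : ∀ i j, 0 ≤ c i j) (hsym : ∀ i j, c i j = c j i) (hdiag : ∀ i, c i i = 0)
    (hD : 0 < D) (hdeg : ∀ i, ∑ j, c i j ≤ D) {s : ℕ} (hs1 : 1 ≤ s) {m : ℕ} (hm : 1 ≤ m)
    (E : Finset V) (hE : 32 * E.card ≤ Fintype.card V)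
    (hspread : ∀ i ∉ E, ∀ S : Finset V,
      3 ≤ 4 * ∑ j ∈ S, (lazyWalk c D ^ (2 * s)) i j → m ≤ S.card)
    (hneg : IsNegTypeSemimetric d) :
    phi c * ∑ x, ∑ y, d x y ≤
      80000000000000 * s * Real.sqrt (1 + (Nat.log 2 (Fintype.card V / m) : ℝ)) *
        ∑ x, ∑ y, c x y * d x y := by
  obtain ⟨s, rfl⟩ : ∃ s', s = s' + 1 := ⟨s - 1, by omega⟩
  have hW := lazy_sto hc hsym hdiag hD hdeg
  have hP := hW.pow (2 * (s + 1))
  have h1 := arv_main (c := fun i j => (lazyWalk c D ^ (2 * (s + 1))) i j) (d := d)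
    hP.nn hP.sy hm E hE (fun i hi S _ h => hspread i hi S (by
      have h2 : ∑ j, (lazyWalk c D ^ (2 * (s + 1))) i j = 1 := hP.row i
      simp only [h2] at h
      linarith)) hneg
  obtain ⟨⟨X, hX⟩, ht⟩ := hneg
  have hd : ∀ x y, 0 ≤ d x y := fun x y => by rw [hX]; positivity
  have hd0 : ∀ x, d x x = 0 := fun x => by rw [hX]; simp
  have h2 := walk_to_c hc hsym hdiag hD hdeg s hd hd0 ht (by positivity) h1
  refine h2.trans (le_of_eq ?_)
  push_cast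
  ring

theorem walk_metric (hc : ∀ i j, 0 ≤ c i j) (hsym : ∀ i j, c i j = c j i)
    (hdiag : ∀ i, c i i = 0)
    (hD : 0 < D) (hdeg : ∀ i, ∑ j, c i j ≤ D) {s : ℕ} (hs1 : 1 ≤ s) {m : ℕ} (hm : 1 ≤ m)
    (E : Finset V) (hE : 32 * E.card ≤ Fintype.card V)
    (hspread : ∀ i ∉ E, ∀ S : Finset V,
      3 ≤ 4 * ∑ j ∈ S, (lazyWalk c D ^ (2 * s)) i j → m ≤ S.card)
    (hd : ∀ x y, 0 ≤ d x y) (hd0 : ∀ x, d x x = 0) (hs : ∀ x y, d x y = d y x)
    (ht : ∀ x y z, d x z ≤ d x y + d y z) :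
    phi c * ∑ x, ∑ y, d x y ≤
      32768 * s * ((Nat.log 2 (Fintype.card V / m) : ℝ) + 1) *
        ∑ x, ∑ y, c x y * d x y := by
  obtain ⟨s, rfl⟩ : ∃ s', s = s' + 1 := ⟨s - 1, by omega⟩
  have hW := lazy_sto hc hsym hdiag hD hdeg
  have hP := hW.pow (2 * (s + 1))
  have h1 := mainB (c := fun i j => (lazyWalk c D ^ (2 * (s + 1))) i j) (d := d)
    hP.nn hP.sy hm E hE (fun i hi S _ h => hspread i hi S (by
      have h2 : ∑ j, (lazyWalk c D ^ (2 * (s + 1))) i j = 1 := hP.row i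
      simp only [h2] at h
      linarith)) hd hs ht
  have h2 := walk_to_c hc hsym hdiag hD hdeg s hd hd0 ht (by positivity) h1
  refine h2.trans (le_of_eq ?_)
  push_cast
  ring

end Vale.Agent.P318.H724
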